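import Crest.Agent.N334.AC.L.Basic

/-! # S0520 part L: Combes-Thomas from local block bounds (leaf).
Proof of `ct`. Work with the compressions to `O`. `χ_p(x) = max 0 (1 - tdist x p / ρ)`,
`c = ∑_p χ_p(x)²` (independent of `x`, `≥ vol(ρ/2)/4`). `G = c⁻¹∑ χ_p G χ_p + c⁻¹∑ [G,χ_p] χ_p` and
`[G,χ] = (1 - GΔ)[G0,χ](1 - ΔG)`. Split `G0 = near (tdist ≤ L0) + far`. For `θ' ∈ [0,1/ρ]`,
`x(θ') = ‖wt θ' φ G‖` satisfies `x ≤ P + (1+x)(a + b(1+x))` with `P = 4·3^d e² Ā`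
(`norm_sum_local_le`, twist on a ball of radius `ρ` costs `e²`),
`a = 4·5^d e⁴ (vol L0 · A0 · L0/ρ)(1+Ā) ≤ 1/4` (Schur), `b = 2 e^{-L0/(4R0)} (12 d R0)^d`
(`‖c⁻¹ ∑ χ_p Y χ_p‖ ≤ ‖Y‖`). So `x ≤ x₁ := x0 + 300·3^d Ā - 1` forces `x ≤ 2P+1`; `x(0) ≤ x0`, and `x` is
continuous in `θ'` (intermediate value theorem). -/

set_option autoImplicit false

open Finset Complex
open scoped Matrix.Norms.L2Operator Matrix

namespace Crest.Agent.N334.AC

variable {d M : ℕ} [NeZero M]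

namespace CtA

section Gen

variable {ι : Type} [Fintype ι] [DecidableEq ι] (θ : ℝ) (φ : ι → ℝ)

omit [DecidableEq ι] in
lemma wt_mul (X Y : Matrix ι ι ℂ) : wt θ φ (X * Y) = wt θ φ X * wt θ φ Y := by
  ext a b
  simp only [wt, Matrix.mul_apply, Finset.mul_sum]
  refine Finset.sum_congr rfl fun c _ => ?_
  have : θ * (φ a - φ b) = θ * (φ a - φ c) + θ * (φ c - φ b) := by ring
  rw [this, Real.exp_add]; push_cast; ring

omit [Fintype ι] [DecidableEq ι] in
lemma wt_add (X Y : Matrix ι ι ℂ) : wt θ φ (X + Y) = wt θ φ X + wt θ φ Y := by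
  ext a b; simp [wt, mul_add]

omit [Fintype ι] [DecidableEq ι] in
lemma wt_sub (X Y : Matrix ι ι ℂ) : wt θ φ (X - Y) = wt θ φ X - wt θ φ Y := by
  ext a b; simp [wt, mul_sub]

omit [Fintype ι] [DecidableEq ι] in
lemma wt_smul (c : ℝ) (X : Matrix ι ι ℂ) : wt θ φ (c • X) = c • wt θ φ X := by
  ext a b; simp [wt]; ring

omit [Fintype ι] [DecidableEq ι] in
lemma wt_sum {κ : Type} (s : Finset κ) (X : κ → Matrix ι ι ℂ) :
    wt θ φ (∑ p ∈ s, X p) = ∑ p ∈ s, wt θ φ (X p) := by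
  ext a b; simp [wt, Matrix.sum_apply, Finset.mul_sum]

omit [Fintype ι] in
lemma wt_diagonal (δ : ι → ℂ) : wt θ φ (Matrix.diagonal δ) = Matrix.diagonal δ := by
  ext a b
  by_cases h : a = b
  · subst h; simp [wt]
  · simp [wt, h]

omit [Fintype ι] in
lemma wt_one : wt θ φ (1 : Matrix ι ι ℂ) = 1 := by
  rw [← Matrix.diagonal_one, wt_diagonal]

omit [Fintype ι] [DecidableEq ι] in
lemma norm_wt (X : Matrix ι ι ℂ) (a b : ι) :
    ‖wt θ φ X a b‖ = Real.exp (θ * (φ a - φ b)) * ‖X a b‖ := by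
  rw [wt, norm_mul, Complex.norm_real, Real.norm_of_nonneg (Real.exp_nonneg _)]

lemma norm_one_le : ‖(1 : Matrix ι ι ℂ)‖ ≤ 1 := by
  rw [← Matrix.diagonal_one]
  exact norm_diagonal_le zero_le_one fun _ => by simp

lemma norm_mul3 {X Y Z : Matrix ι ι ℂ} {a b c : ℝ} (hX : ‖X‖ ≤ a) (hY : ‖Y‖ ≤ b) (hZ : ‖Z‖ ≤ c) :
    ‖X * Y * Z‖ ≤ a * b * c :=
  (norm_mul_le _ _).trans (mul_le_mul ((norm_mul_le _ _).trans
    (mul_le_mul hX hY (norm_nonneg _) ((norm_nonneg _).trans hX))) hZ (norm_nonneg _)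
    (mul_nonneg ((norm_nonneg _).trans hX) ((norm_nonneg _).trans hY)))

lemma mul_cmp_mul {X Z : Matrix ι ι ℂ} (Y : Matrix ι ι ℂ) {Q : Finset ι}
    (hX : ∀ a k, k ∉ Q → X a k = 0) (hZ : ∀ l b, l ∉ Q → Z l b = 0) :
    X * Y * Z = X * cmp Y Q * Z := by
  ext a b
  simp only [Matrix.mul_apply, Finset.sum_mul]
  refine Finset.sum_congr rfl fun l _ => Finset.sum_congr rfl fun k _ => ?_
  by_cases hk : k ∈ Q
  · by_cases hl : l ∈ Q
    · simp [cmp, hk, hl]
    · simp [hZ l b hl]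
  · simp [hX a k hk]

lemma cmp_mul_mul {X Z : Matrix ι ι ℂ} (Y : Matrix ι ι ℂ) {Q : Finset ι}
    (hX : ∀ a k, a ∉ Q → X a k = 0) (hZ : ∀ l b, b ∉ Q → Z l b = 0) :
    cmp (X * Y * Z) Q = X * Y * Z := by
  ext a b
  by_cases ha : a ∈ Q
  · by_cases hb : b ∈ Q
    · simp [cmp, ha, hb]
    · simp [cmp, hb, Matrix.mul_apply, hZ _ b hb]
  · simp [cmp, ha, Matrix.mul_apply, hX a _ ha]

omit [Fintype ι] in
lemma cmp_cmp (X : Matrix ι ι ℂ) (O Q : Finset ι) : cmp (cmp X O) Q = cmp X (O ∩ Q) := by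
  ext a b
  by_cases h1 : a ∈ O <;> by_cases h2 : b ∈ O <;> by_cases h3 : a ∈ Q <;> by_cases h4 : b ∈ Q <;>
    simp [cmp, h1, h2, h3, h4]

lemma cmp_res {X Y : Matrix ι ι ℂ} {Δ : ι → ℂ} {O : Finset ι} (hΔ : Supp Δ O) :
    cmp (X * Matrix.diagonal Δ * Y) O = cmp X O * Matrix.diagonal Δ * cmp Y O := by
  ext a b
  simp only [cmp, Matrix.mul_apply (M := _ * Matrix.diagonal Δ), Matrix.mul_diagonal]
  by_cases ha : a ∈ O
  · by_cases hb : b ∈ O
    · rw [if_pos ⟨ha, hb⟩]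
      refine Finset.sum_congr rfl fun k _ => ?_
      by_cases hk : k ∈ O
      · simp [ha, hb, hk]
      · simp [hΔ k hk]
    · simp [hb]
  · simp [ha]

omit [Fintype ι] in
lemma cmp_sub (X Y : Matrix ι ι ℂ) (O : Finset ι) : cmp (X - Y) O = cmp X O - cmp Y O := by
  ext a b
  by_cases h : a ∈ O ∧ b ∈ O <;> simp [cmp, h]

/-- averaging with a quadratic partition of unity -/
lemma norm_avg_le {κ : Type} [Fintype κ] (χ : κ → ι → ℝ) {c : ℝ} (hc : 0 ≤ c)
    (h : ∀ x, ∑ p, χ p x ^ 2 = c) (Y : Matrix ι ι ℂ) :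
    ‖∑ p, Matrix.diagonal (fun x => (χ p x : ℂ)) * Y * Matrix.diagonal fun x => (χ p x : ℂ)‖ ≤
      c * ‖Y‖ := by
  have h1 : ∀ x, ∑ p, ‖(Matrix.of fun x p => (χ p x : ℂ)) x p‖ ^ 2 ≤ √c ^ 2 := fun x => by
    rw [Real.sq_sqrt hc, ← h x]
    simp
  have h2 := norm_hadamard_le Y _ _ (Real.sqrt_nonneg c) (Real.sqrt_nonneg c) h1 h1
  rw [mul_assoc, Real.mul_self_sqrt hc, mul_comm] at h2
  refine le_of_eq_of_le (congrArg _ ?_) h2
  ext a b
  simp only [Matrix.sum_apply, Matrix.mul_diagonal, Matrix.diagonal_mul, Matrix.hadamard_apply,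
    Matrix.mul_apply (M := Matrix.of _), Matrix.of_apply, Matrix.transpose_apply, Finset.mul_sum]
  exact Finset.sum_congr rfl fun p _ => by ring

/-- the commutator identity -/
lemma comm_id {R : Type} [Ring R] {g D n f χ : R} (h1 : g = (n + f) - g * D * (n + f))
    (h2 : g = (n + f) - (n + f) * D * g) (hc : χ * D = D * χ) :
    g * (χ * χ) = χ * g * χ + (1 - g * D) * ((n * χ - χ * n) * (1 - D * g) * χ +
      f * (χ * (1 - D * g) * χ) - χ * (f * (1 - D * g)) * χ) := by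
  have e1 : (1 - g * D) * (n + f) = g := by rw [sub_mul, one_mul]; exact h1.symm
  have e2 : (n + f) * (1 - D * g) = g := by rw [mul_sub, mul_one, ← mul_assoc]; exact h2.symm
  have e3 : g * (χ * D) * g * χ = g * (D * χ) * g * χ := by rw [hc]
  calc g * (χ * χ) = χ * g * χ + (g * χ * (1 - D * g) * χ - (1 - g * D) * χ * g * χ) := by
        rw [← sub_eq_zero, ← sub_eq_zero.2 e3]; noncomm_ring
    _ = χ * g * χ + ((1 - g * D) * (n + f) * χ * (1 - D * g) * χ -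
          (1 - g * D) * χ * ((n + f) * (1 - D * g)) * χ) := by rw [e1, e2]
    _ = _ := by noncomm_ring

end Gen

lemma lip_tdist (b x y : Tor d M) : |(tdist x b : ℝ) - tdist y b| ≤ tdist x y := by
  have h2 : (tdist x b : ℝ) ≤ tdist x y + tdist y b := by exact_mod_cast tdist_triangle x y b
  have h3 : (tdist y b : ℝ) ≤ tdist y x + tdist x b := by exact_mod_cast tdist_triangle y x b
  rw [tdist_comm y x] at h3
  rw [abs_le]; constructor <;> linarith

/-- twisting a localized matrix -/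
lemma norm_wt_local {θ : ℝ} (h0 : 0 ≤ θ) {φ : Tor d M → ℝ} (hφ : ∀ a b, |φ a - φ b| ≤ tdist a b)
    {X : Matrix (Tor d M) (Tor d M) ℂ} {p : Tor d M} {r : ℕ} (hX : cmp X (tball p r) = X) :
    ‖wt θ φ X‖ ≤ Real.exp (2 * (θ * r)) * ‖X‖ := by
  have e : wt θ φ X = Matrix.diagonal (fun a => if a ∈ tball p r then
      (Real.exp (θ * (φ a - φ p)) : ℂ) else 0) * X * Matrix.diagonal fun b =>
      if b ∈ tball p r then (Real.exp (θ * (φ p - φ b)) : ℂ) else 0 := by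
    ext a b
    rw [Matrix.mul_diagonal, Matrix.diagonal_mul, wt]
    by_cases h : a ∈ tball p r ∧ b ∈ tball p r
    · have : θ * (φ a - φ b) = θ * (φ a - φ p) + θ * (φ p - φ b) := by ring
      rw [if_pos h.1, if_pos h.2, this, Real.exp_add]; push_cast; ring
    · have : X a b = 0 := by rw [← hX, cmp, if_neg h]
      simp [this]
  have h1 : ∀ (t : Tor d M → ℝ), (∀ a, t a ≤ tdist a p) → ‖Matrix.diagonal fun a =>
      if a ∈ tball p r then (Real.exp (θ * t a) : ℂ) else 0‖ ≤ Real.exp (θ * r) := fun t ht =>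
    norm_diagonal_le (Real.exp_nonneg _) fun a => by
      split_ifs with h
      · rw [Complex.norm_real, Real.norm_of_nonneg (Real.exp_nonneg _), Real.exp_le_exp]
        exact mul_le_mul_of_nonneg_left ((ht a).trans (by exact_mod_cast mem_tball.1 h)) h0
      · rw [norm_zero]; positivity
  rw [e]
  refine (norm_mul3 (h1 _ fun a => (abs_le.1 (hφ a p)).2) le_rfl
    (h1 _ fun a => by linarith [(abs_le.1 (hφ a p)).1])).trans_eq ?_
  rw [two_mul, Real.exp_add]; ring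

lemma norm_wt_sum {θ : ℝ} (h0 : 0 ≤ θ) {φ : Tor d M → ℝ} (hφ : ∀ a b, |φ a - φ b| ≤ tdist a b)
    {X : Tor d M → Matrix (Tor d M) (Tor d M) ℂ} {r : ℕ} {a : ℝ} (ha : 0 ≤ a)
    (hX : ∀ p, cmp (X p) (tball p r) = X p ∧ ‖X p‖ ≤ a) :
    ‖wt θ φ (∑ p, X p)‖ ≤ vol d M r * (Real.exp (2 * (θ * r)) * a) := by
  rw [wt_sum]
  refine norm_sum_local_le univ _ (fun p => tball p r) (by positivity) (fun p _ => ⟨?_,
    (norm_wt_local h0 hφ (hX p).1).trans (mul_le_mul_of_nonneg_left (hX p).2 (Real.exp_nonneg _))⟩)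
    fun x => (card_filter_mem_tball x r).le
  ext x y
  by_cases h : x ∈ tball p r ∧ y ∈ tball p r
  · rw [cmp, if_pos h]
  · have : X p x y = 0 := by rw [← (hX p).1, cmp, if_neg h]
    simp [cmp, h, wt, this]

/-- the sliding cut-off -/
noncomputable def chi (ρ : ℕ) (p x : Tor d M) : ℝ := max 0 (1 - (tdist x p : ℝ) / ρ)

variable {ρ : ℕ}

omit [NeZero M] in
lemma norm_chi_le (p x : Tor d M) : ‖(chi ρ p x : ℂ)‖ ≤ 1 := by
  rw [Complex.norm_real, chi, Real.norm_of_nonneg (le_max_left _ _)]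
  exact max_le zero_le_one (sub_le_self _ (by positivity))

lemma chi_eq_zero (hρ : 0 < ρ) {p x : Tor d M} {r : ℕ} (hr : ρ ≤ r) (h : x ∉ tball p r) :
    chi ρ p x = 0 := by
  have h1 : (ρ : ℝ) ≤ tdist x p := by
    rw [mem_tball] at h
    exact_mod_cast (by omega : ρ ≤ tdist x p)
  have h2 : (0 : ℝ) < ρ := by exact_mod_cast hρ
  exact max_eq_left (by rw [sub_nonpos, le_div_iff₀ h2]; linarith)

lemma chi_lip (p a b : Tor d M) : |chi ρ p a - chi ρ p b| ≤ tdist a b / ρ := by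
  rw [chi, chi, max_comm, max_comm 0]
  refine (abs_max_sub_max_le_abs _ _ _).trans ?_
  rw [sub_sub_sub_cancel_left, ← sub_div, abs_div, Nat.abs_cast, abs_sub_comm]
  exact div_le_div_of_nonneg_right (lip_tdist p a b) ρ.cast_nonneg

lemma sum_chi (x : Tor d M) : ∑ p, chi ρ p x ^ 2 = ∑ p : Tor d M, chi ρ 0 p ^ 2 := by
  rw [← Equiv.sum_comp (Equiv.subLeft x) fun p => chi ρ 0 p ^ 2]
  simp only [chi, Equiv.subLeft_apply, tdist_sub]

lemma le_sum_chi (hρ : 0 < ρ) : vol d M (ρ / 2) ≤ 4 * ∑ p : Tor d M, chi ρ 0 p ^ 2 := by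
  have h2 : (0 : ℝ) < ρ := by exact_mod_cast hρ
  rw [vol, Finset.mul_sum, card_eq_sum_ones, Nat.cast_sum]
  refine (sum_le_sum fun p hp => ?_).trans
    (sum_le_sum_of_subset_of_nonneg (subset_univ _) fun _ _ _ => by positivity)
  have h3 : (2 * tdist p 0 : ℝ) ≤ ρ := by
    rw [mem_tball] at hp
    exact_mod_cast (by omega : 2 * tdist p 0 ≤ ρ)
  have h4 : 1 / 2 ≤ chi ρ 0 p := by
    refine le_max_of_le_right ?_
    have : (tdist p 0 : ℝ) / ρ ≤ 1 / 2 := by rw [div_le_iff₀ h2]; linarith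
    linarith
  push_cast
  nlinarith

lemma exp_two_le : Real.exp 2 ≤ 15 / 2 := by
  have h := Real.exp_one_lt_d9
  have h0 := Real.exp_pos 1
  rw [show (2 : ℝ) = 1 + 1 by norm_num, Real.exp_add]
  nlinarith

lemma exp_four_le : Real.exp 4 ≤ 60 := by
  have h := exp_two_le
  have h0 := Real.exp_pos 2
  rw [show (4 : ℝ) = 2 + 2 by norm_num, Real.exp_add]
  nlinarith

/-- the quadratic inequality -/
lemma quad {g n f : Matrix (Tor d M) (Tor d M) ℂ} {Δ : Tor d M → ℂ} {A0 Ab F θ : ℝ} {L0 : ℕ}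
    (hΔ1 : ∀ x, ‖Δ x‖ ≤ 1) (h1 : g = (n + f) - g * Matrix.diagonal Δ * (n + f))
    (h2 : g = (n + f) - (n + f) * Matrix.diagonal Δ * g)
    (hn : ∀ a b, ‖n a b‖ ≤ if tdist a b ≤ L0 then A0 else 0)
    (hblk : ∀ p, ‖cmp g (tball p (4 * ρ))‖ ≤ Ab) (hρ : 2 ≤ ρ) (hL : 2 * L0 ≤ ρ) (hA0 : 0 ≤ A0)
    (ha : 1000 * 5 ^ d * vol d M L0 * A0 * L0 * (1 + Ab) ≤ ρ) (h0 : 0 ≤ θ) (hθ : θ * ρ ≤ 1)
    {φ : Tor d M → ℝ} (hφ : ∀ a b, |φ a - φ b| ≤ tdist a b) (hF : ‖wt θ φ f‖ ≤ F) :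
    ‖wt θ φ g‖ ≤ 30 * 3 ^ d * Ab + (1 + ‖wt θ φ g‖) * (1 / 4 + 2 * F * (1 + ‖wt θ φ g‖)) := by
  have hρ0 : 0 < ρ := by omega
  have hρ' : (0 : ℝ) < ρ := by exact_mod_cast hρ0
  have hAb : 0 ≤ Ab := (norm_nonneg _).trans (hblk 0)
  have hF0 : 0 ≤ F := (norm_nonneg _).trans hF
  set D := Matrix.diagonal Δ with hD
  set x := ‖wt θ φ g‖ with hx
  have hx0 : 0 ≤ x := norm_nonneg _
  set c := ∑ p : Tor d M, chi ρ 0 p ^ 2 with hc
  have hc4 : vol d M (ρ / 2) ≤ 4 * c := le_sum_chi hρ0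
  have hc0 : 0 < c := by linarith [one_le_vol (d := d) (M := M) (ρ / 2)]
  let χ : Tor d M → Matrix (Tor d M) (Tor d M) ℂ := fun p =>
    Matrix.diagonal fun y => (chi ρ p y : ℂ)
  have nχ : ∀ p, ‖χ p‖ ≤ 1 := fun p => norm_diagonal_le zero_le_one (norm_chi_le p)
  have nD : ‖D‖ ≤ 1 := norm_diagonal_le zero_le_one hΔ1
  have rχ : ∀ p {r : ℕ}, ρ ≤ r → ∀ a b, a ∉ tball p r → χ p a b = 0 := fun p r hr a b h => by
    simp only [χ, Matrix.diagonal_apply, chi_eq_zero hρ0 hr h]; simp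
  have cχ : ∀ p {r : ℕ}, ρ ≤ r → ∀ a b, b ∉ tball p r → χ p a b = 0 := fun p r hr a b h => by
    by_cases e : a = b
    · exact rχ p hr a b (e ▸ h)
    · exact Matrix.diagonal_apply_ne _ e
  have key : c • g = ∑ p, χ p * g * χ p + (1 - g * D) * (∑ p, (n * χ p - χ p * n) * (1 - D * g) * χ p
      + f * ∑ p, χ p * (1 - D * g) * χ p - ∑ p, χ p * (f * (1 - D * g)) * χ p) := by
    have e : ∑ p, χ p * χ p = c • (1 : Matrix (Tor d M) (Tor d M) ℂ) := by
      ext a b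
      by_cases h : a = b
      · subst h
        simp only [χ, Matrix.sum_apply, Matrix.diagonal_mul_diagonal, Matrix.diagonal_apply_eq,
          Matrix.smul_apply, Matrix.one_apply_eq, Complex.real_smul, mul_one]
        rw [hc, ← sum_chi a]; push_cast
        exact Finset.sum_congr rfl fun p _ => by ring
      · simp [χ, Matrix.sum_apply, h]
    rw [Finset.mul_sum, ← Finset.sum_add_distrib, ← Finset.sum_sub_distrib, Finset.mul_sum,
      ← Finset.sum_add_distrib, ← Finset.sum_congr rfl fun p _ => comm_id (χ := χ p) h1 h2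
        (by simp only [χ, hD, Matrix.diagonal_mul_diagonal, mul_comm]),
      ← Finset.mul_sum, e, Matrix.mul_smul, mul_one]
  -- the diagonal blocks
  have t1 : ‖wt θ φ (∑ p, χ p * g * χ p)‖ ≤ c * (30 * 3 ^ d * Ab) := by
    refine (norm_wt_sum h0 hφ (r := ρ) hAb fun p => ⟨cmp_mul_mul _ (rχ p le_rfl) (cχ p le_rfl),
      ?_⟩).trans ?_
    · rw [mul_cmp_mul g (cχ p (r := 4 * ρ) (by omega)) (rχ p (by omega))]
      simpa using norm_mul3 (nχ p) (hblk p) (nχ p)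
    · have a1 : vol d M ρ ≤ 3 ^ d * (4 * c) := by
        have := (vol_mono (by omega : ρ ≤ 3 * (ρ / 2))).trans (vol_mul_le (d := d) (M := M) 3 _ (by norm_num))
        exact this.trans (by push_cast; gcongr)
      have a2 : Real.exp (2 * (θ * ρ)) ≤ 15 / 2 :=
        (Real.exp_le_exp.2 (by linarith)).trans exp_two_le
      calc _ ≤ 3 ^ d * (4 * c) * (15 / 2 * Ab) := by gcongr
        _ = _ := by ring
  -- the near commutator
  have eC : ∀ p a b, (n * χ p - χ p * n) a b = n a b * ((chi ρ p b - chi ρ p a : ℝ) : ℂ) :=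
    fun p a b => by
      simp only [χ, Matrix.sub_apply, Matrix.mul_diagonal, Matrix.diagonal_mul]; push_cast; ring
  have zC : ∀ p a b, a ∉ tball p (ρ + L0) ∨ b ∉ tball p (ρ + L0) → (n * χ p - χ p * n) a b = 0 :=
    fun p a b h => by
      rw [eC]
      by_cases h3 : tdist a b ≤ L0
      · have h4 := tdist_triangle a b p
        have h5 := tdist_triangle b a p
        rw [tdist_comm b a] at h5
        simp only [mem_tball] at h
        rw [chi_eq_zero hρ0 le_rfl (x := a) (by rw [mem_tball]; omega),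
          chi_eq_zero hρ0 le_rfl (x := b) (by rw [mem_tball]; omega)]
        simp
      · have := hn a b
        rw [if_neg h3, norm_le_zero_iff] at this
        rw [this, zero_mul]
  have nC : ∀ p, ‖n * χ p - χ p * n‖ ≤ vol d M L0 * (A0 * (L0 / ρ)) := fun p => by
    have b1 : ∀ a b, ‖(n * χ p - χ p * n) a b‖ ≤ if tdist a b ≤ L0 then A0 * (L0 / ρ) else 0 :=
      fun a b => by
        have b2 := hn a b
        rw [eC, norm_mul, Complex.norm_real, Real.norm_eq_abs, abs_sub_comm]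
        split_ifs at b2 ⊢ with h
        · refine mul_le_mul b2 ((chi_lip p a b).trans ?_) (abs_nonneg _) hA0
          exact div_le_div_of_nonneg_right (by exact_mod_cast h) hρ'.le
        · rw [norm_le_zero_iff.1 b2]; simp
    have b3 : ∀ b : Tor d M, ∑ a, (if tdist a b ≤ L0 then A0 * (L0 / ρ) else 0) =
        vol d M L0 * (A0 * (L0 / ρ)) := fun b => by
      rw [← Finset.sum_filter, Finset.sum_const, nsmul_eq_mul, ← card_tball b]; rfl
    have b0 := one_le_vol (d := d) (M := M) L0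
    exact norm_le_schur (by positivity)
      (fun a => (sum_le_sum fun b _ => by rw [tdist_comm b a]; exact b1 a b).trans (b3 a).le)
      fun b => (sum_le_sum fun a _ => b1 a b).trans (b3 b).le
  have t2 : ‖wt θ φ (∑ p, (n * χ p - χ p * n) * (1 - D * g) * χ p)‖ ≤ c * (1 / 4) := by
    have b0 := one_le_vol (d := d) (M := M) L0
    refine (norm_wt_sum h0 hφ (r := ρ + L0) (a := vol d M L0 * (A0 * (L0 / ρ)) * (1 + Ab))
      (by positivity) fun p => ⟨cmp_mul_mul _ (fun a k h => zC p a k (Or.inl h))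
        (cχ p (by omega)), ?_⟩).trans ?_
    · have e : (n * χ p - χ p * n) * (1 - D * g) * χ p =
          (n * χ p - χ p * n) * (1 - D * cmp g (tball p (4 * ρ))) * χ p := by
        have := mul_cmp_mul (X := (n * χ p - χ p * n) * D) (Z := χ p) g (Q := tball p (4 * ρ))
          (fun a k h => by
            rw [hD, Matrix.mul_diagonal, zC p a k (Or.inr fun h' => h (tball_mono p (by omega) h')),
              zero_mul]) (rχ p (by omega))
        simp only [mul_sub (n * χ p - χ p * n), sub_mul _ _ (χ p), ← mul_assoc, this]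
      have b1 : ‖1 - D * cmp g (tball p (4 * ρ))‖ ≤ 1 + Ab :=
        (norm_sub_le _ _).trans (add_le_add norm_one_le ((norm_mul_le _ _).trans
          ((mul_le_of_le_one_left (norm_nonneg _) nD).trans (hblk p))))
      rw [e]
      simpa using norm_mul3 (nC p) b1 (nχ p)
    · have a1 : vol d M (ρ + L0) ≤ 5 ^ d * (4 * c) := by
        have := (vol_mono (by omega : ρ + L0 ≤ 5 * (ρ / 2))).trans
          (vol_mul_le (d := d) (M := M) 5 _ (by norm_num))
        exact this.trans (by push_cast; gcongr)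
      have a2 : Real.exp (2 * (θ * (ρ + L0 : ℕ))) ≤ 60 := by
        refine (Real.exp_le_exp.2 ?_).trans exp_four_le
        have : ((ρ + L0 : ℕ) : ℝ) ≤ 2 * ρ := by exact_mod_cast (by omega : ρ + L0 ≤ 2 * ρ)
        nlinarith
      have a3 : 5 ^ d * vol d M L0 * A0 * L0 * (1 + Ab) / ρ ≤ 1 / 1000 := by
        rw [div_le_iff₀ hρ']; linarith
      calc _ ≤ 5 ^ d * (4 * c) * (60 * (vol d M L0 * (A0 * (L0 / ρ)) * (1 + Ab))) := by gcongr
        _ = c * (240 * (5 ^ d * vol d M L0 * A0 * L0 * (1 + Ab) / ρ)) := by ring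
        _ ≤ _ := mul_le_mul_of_nonneg_left (by linarith) hc0.le
  have nY : ‖wt θ φ (1 - D * g)‖ ≤ 1 + x := by
    rw [wt_sub, wt_one, wt_mul, hD, wt_diagonal]
    exact (norm_sub_le _ _).trans (add_le_add norm_one_le ((norm_mul_le _ _).trans
      (mul_le_of_le_one_left hx0 nD)))
  have nU : ‖wt θ φ (1 - g * D)‖ ≤ 1 + x := by
    rw [wt_sub, wt_one, wt_mul, hD, wt_diagonal]
    exact (norm_sub_le _ _).trans (add_le_add norm_one_le ((norm_mul_le _ _).trans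
      (mul_le_of_le_one_right hx0 nD)))
  have av : ∀ Y, ‖wt θ φ (∑ p, χ p * Y * χ p)‖ ≤ c * ‖wt θ φ Y‖ := fun Y => by
    simp only [wt_sum, wt_mul, χ, wt_diagonal]
    exact norm_avg_le (chi ρ) hc0.le sum_chi _
  have t3 : ‖wt θ φ (f * ∑ p, χ p * (1 - D * g) * χ p)‖ ≤ c * (F * (1 + x)) := by
    rw [wt_mul]
    refine (norm_mul_le _ _).trans ((mul_le_mul hF ((av _).trans
      (mul_le_mul_of_nonneg_left nY hc0.le)) (norm_nonneg _) hF0).trans_eq (by ring))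
  have t4 : ‖wt θ φ (∑ p, χ p * (f * (1 - D * g)) * χ p)‖ ≤ c * (F * (1 + x)) := by
    refine (av _).trans (mul_le_mul_of_nonneg_left ?_ hc0.le)
    rw [wt_mul]
    exact (norm_mul_le _ _).trans (mul_le_mul hF nY (norm_nonneg _) hF0)
  have fin : c * x ≤ c * (30 * 3 ^ d * Ab) +
      (1 + x) * (c * (1 / 4) + c * (F * (1 + x)) + c * (F * (1 + x))) := by
    have e : c * x = ‖wt θ φ (c • g)‖ := by rw [wt_smul, norm_smul, Real.norm_of_nonneg hc0.le]
    rw [e, key, wt_add, wt_mul, wt_sub θ φ (_ + _), wt_add]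
    exact (norm_add_le _ _).trans (add_le_add t1 ((norm_mul_le _ _).trans (mul_le_mul nU
      ((norm_sub_le _ _).trans (add_le_add ((norm_add_le _ _).trans (add_le_add t2 t3)) t4))
      (norm_nonneg _) (by positivity))))
  exact le_of_mul_le_mul_left (fin.trans_eq (by ring)) hc0

end CtA

open CtA

lemma TW.norm {θ A : ℝ} {X : Matrix (Tor d M) (Tor d M) ℂ} (h : TW θ A X) : ‖X‖ ≤ A := by
  have h1 := h (fun _ => 0) fun a b => by simp
  have e : wt θ (fun _ => 0) X = X := by ext a b; simp [wt]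
  rwa [e] at h1
lemma TW.entry {θ A : ℝ} {X : Matrix (Tor d M) (Tor d M) ℂ} (h : TW θ A X) (a b : Tor d M) :
    ‖X a b‖ ≤ A * Real.exp (-θ * tdist a b) := by
  have h1 := (norm_entry_le _ a b).trans (h (fun x => tdist x b) (lip_tdist b))
  rw [norm_wt, tdist_self, Nat.cast_zero, sub_zero] at h1
  rw [neg_mul, Real.exp_neg, ← div_eq_mul_inv, le_div_iff₀ (Real.exp_pos _), mul_comm]
  exact h1
lemma TW.mono {θ θ' A A' : ℝ} {X : Matrix (Tor d M) (Tor d M) ℂ} (h : TW θ A X) (h0 : 0 ≤ θ')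
    (hθ : θ' ≤ θ) (hA : A ≤ A') : TW θ' A' X := by
  intro φ hφ
  rcases (h0.trans hθ).eq_or_lt with e | e
  · rw [le_antisymm hθ (e ▸ h0)]; exact (h φ hφ).trans hA
  · have h1 := h (fun x => θ' / θ * φ x) fun a b => by
      rw [← mul_sub, abs_mul, abs_of_nonneg (by positivity)]
      exact (mul_le_of_le_one_left (abs_nonneg _) ((div_le_one e).2 hθ)).trans (hφ a b)
    have e2 : wt θ (fun x => θ' / θ * φ x) X = wt θ' φ X := by
      ext a b
      simp only [wt]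
      congr 3
      field_simp
    rw [e2] at h1
    exact h1.trans hA
lemma TW.mul {θ A B : ℝ} {X Y : Matrix (Tor d M) (Tor d M) ℂ} (h : TW θ A X) (h' : TW θ B Y) :
    TW θ (A * B) (X * Y) := by
  intro φ hφ
  rw [wt_mul]
  exact (norm_mul_le _ _).trans
    (mul_le_mul (h φ hφ) (h' φ hφ) (norm_nonneg _) ((norm_nonneg _).trans (h φ hφ)))
lemma TW.add {θ A B : ℝ} {X Y : Matrix (Tor d M) (Tor d M) ℂ} (h : TW θ A X) (h' : TW θ B Y) :
    TW θ (A + B) (X + Y) := by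
  intro φ hφ
  rw [wt_add]
  exact (norm_add_le _ _).trans (add_le_add (h φ hφ) (h' φ hφ))
/-- entrywise decay beyond `D` gives a twisted bound at half the rate -/
lemma TW.of_entry {θ A : ℝ} {D : ℕ} {X : Matrix (Tor d M) (Tor d M) ℂ} (h0 : 0 < θ) (h1 : θ ≤ 1)
    (hA : 0 ≤ A) (h : ∀ a b, ‖X a b‖ ≤ if D < tdist a b then A * Real.exp (-θ * tdist a b) else 0) :
    TW (θ / 2) (A * Real.exp (-θ * D / 4) * (12 * d / θ) ^ d) X := by
  intro φ hφ
  have b1 : ∀ a b, ‖wt (θ / 2) φ X a b‖ ≤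
      if D < tdist a b then A * Real.exp (-(θ / 2) * tdist a b) else 0 := fun a b => by
    have b2 := h a b
    rw [norm_wt]
    split_ifs at b2 ⊢ with h3
    · have b3 : Real.exp (θ / 2 * (φ a - φ b)) ≤ Real.exp (θ / 2 * tdist a b) :=
        Real.exp_le_exp.2 (mul_le_mul_of_nonneg_left (abs_le.1 (hφ a b)).2 (by positivity))
      refine (mul_le_mul b3 b2 (norm_nonneg _) (Real.exp_nonneg _)).trans_eq ?_
      rw [mul_left_comm, ← Real.exp_add]
      congr 2; ring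
    · rw [norm_le_zero_iff.1 b2]; simp
  have b3 : ∀ b : Tor d M, ∑ a, (if D < tdist a b then A * Real.exp (-(θ / 2) * tdist a b) else 0) ≤
      A * Real.exp (-θ * D / 4) * (12 * d / θ) ^ d := fun b => by
    have b4 := sum_exp_tail_le (θ := θ / 2) (by positivity) (by linarith) b D
    have e1 : -(θ / 2) * D / 2 = -θ * D / 4 := by ring
    have e2 : (6 * d / (θ / 2) : ℝ) = 12 * d / θ := by field_simp; ring
    rw [e1, e2] at b4
    rw [← Finset.sum_filter, ← Finset.mul_sum, mul_assoc]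
    exact mul_le_mul_of_nonneg_left b4 hA
  exact norm_le_schur (by positivity)
    (fun a => (sum_le_sum fun b _ => by rw [tdist_comm b a]; exact b1 a b).trans (b3 a))
    fun b => (sum_le_sum fun a _ => b1 a b).trans (b3 b)

theorem ct (hd : 1 ≤ d) {O : Finset (Tor d M)} {G0 G : Matrix (Tor d M) (Tor d M) ℂ}
    {Δ : Tor d M → ℂ} {A0 R0 Ab x0 : ℝ} {L0 ρ : ℕ}
    (hΔ : Supp Δ O) (hΔ1 : ∀ x, ‖Δ x‖ ≤ 1)
    (h1 : G = G0 - G * Matrix.diagonal Δ * G0) (h2 : G = G0 - G0 * Matrix.diagonal Δ * G)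
    (href : ∀ a ∈ O, ∀ b ∈ O, ‖G0 a b‖ ≤ A0 ∧
      (L0 < tdist a b → ‖G0 a b‖ ≤ Real.exp (-(tdist a b : ℝ) / R0)))
    (hblk : ∀ p, ‖cmp G (O ∩ tball p (4 * ρ))‖ ≤ Ab) (hx0 : ‖cmp G O‖ ≤ x0)
    (hR : 1 ≤ R0) (hR' : 2 * R0 ≤ ρ) (hL : 2 * L0 ≤ ρ) (hA : 1 ≤ Ab) (hA0 : 0 ≤ A0)
    (ha : 1000 * 5 ^ d * vol d M L0 * A0 * L0 * (1 + Ab) ≤ ρ)
    (hb : 8 * Real.exp (-(L0 : ℝ) / (4 * R0)) * (12 * d * R0) ^ d * (x0 + 300 * 3 ^ d * Ab) ≤ 1) :
    TW (1 / ρ) (64 * 3 ^ d * Ab) (cmp G O) := by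
  intro φ hφ
  have hρ2 : (2 : ℝ) ≤ ρ := by linarith
  have hR0 : 0 < R0 := by linarith
  have e1 := congrArg (cmp · O) h1
  have e2 := congrArg (cmp · O) h2
  simp only [cmp_sub, cmp_res hΔ] at e1 e2
  let n : Matrix (Tor d M) (Tor d M) ℂ := fun a b => if tdist a b ≤ L0 then cmp G0 O a b else 0
  let f : Matrix (Tor d M) (Tor d M) ℂ := fun a b => if tdist a b ≤ L0 then 0 else cmp G0 O a b
  have e0 : cmp G0 O = n + f := by
    ext a b
    change _ = n a b + f a b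
    by_cases h : tdist a b ≤ L0 <;> simp [n, f, h]
  rw [e0] at e1 e2
  have hn : ∀ a b, ‖n a b‖ ≤ if tdist a b ≤ L0 then A0 else 0 := fun a b => by
    simp only [n, cmp]
    split_ifs with h3 h4
    · exact (href a h4.1 b h4.2).1
    · simpa using hA0
    · simp
  have hf := TW.of_entry (X := f) (θ := 1 / R0) (A := 1) (D := L0) (by positivity)
    ((div_le_one hR0).2 hR) zero_le_one fun a b => by
      simp only [f, cmp]
      by_cases h3 : tdist a b ≤ L0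
      · simp [h3, not_lt.2 h3]
      · rw [if_neg h3, if_pos (not_le.1 h3)]
        split_ifs with h4
        · refine ((href a h4.1 b h4.2).2 (not_le.1 h3)).trans_eq ?_
          rw [one_mul]; congr 1; ring
        · rw [norm_zero]; positivity
  set F := 1 * Real.exp (-(1 / R0) * L0 / 4) * (12 * d / (1 / R0)) ^ d with hF
  have hF0 : 0 ≤ F := by positivity
  have hb' : 8 * F * (x0 + 300 * 3 ^ d * Ab) ≤ 1 := by
    have a1 : -(1 / R0) * L0 / 4 = -(L0 : ℝ) / (4 * R0) := by field_simp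
    have a2 : (12 * d / (1 / R0) : ℝ) = 12 * d * R0 := by field_simp
    rw [hF, a1, a2]; linarith
  have h3d : 1 ≤ 3 ^ d * Ab := one_le_mul_of_one_le_of_one_le (one_le_pow₀ (by norm_num)) hA
  have hx00 : 0 ≤ x0 := (norm_nonneg _).trans hx0
  have step : ∀ θ ∈ Set.Icc (0 : ℝ) (1 / ρ), ‖wt θ φ (cmp G O)‖ ≤ x0 + 300 * 3 ^ d * Ab - 1 →
      ‖wt θ φ (cmp G O)‖ ≤ 64 * 3 ^ d * Ab := fun θ hθ hx => by
    have a1 : θ * ρ ≤ 1 := (le_div_iff₀ (by linarith)).1 hθ.2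
    have a2 : θ ≤ 1 / R0 / 2 := hθ.2.trans (by
      rw [div_div]; exact one_div_le_one_div_of_le (by positivity) (by linarith))
    have a3 := quad hΔ1 e1 e2 hn (fun p => by rw [cmp_cmp]; exact hblk p) (by exact_mod_cast hρ2) hL
      hA0 ha hθ.1 a1 hφ (hf.mono hθ.1 a2 le_rfl φ hφ)
    have a4 := norm_nonneg (wt θ φ (cmp G O))
    set x := ‖wt θ φ (cmp G O)‖
    have a5 : 2 * F * (1 + x) ≤ 1 / 4 := by
      nlinarith [mul_le_mul_of_nonneg_left (by linarith : 1 + x ≤ x0 + 300 * 3 ^ d * Ab) hF0]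
    nlinarith [mul_le_mul_of_nonneg_left a5 (by linarith : 0 ≤ 1 + x)]
  have hρ0 : (0 : ℝ) ≤ 1 / ρ := by positivity
  by_contra hcon
  have c1 : x0 + 300 * 3 ^ d * Ab - 1 ≤ ‖wt (1 / ρ) φ (cmp G O)‖ :=
    le_of_not_ge fun h => hcon (step _ ⟨hρ0, le_rfl⟩ h)
  have c0 : ‖wt 0 φ (cmp G O)‖ ≤ x0 + 300 * 3 ^ d * Ab - 1 := by
    have e : wt 0 φ (cmp G O) = cmp G O := by ext a b; simp [wt]
    rw [e]; linarith
  have hc : Continuous fun θ : ℝ => ‖wt θ φ (cmp G O)‖ :=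
    Continuous.norm (continuous_matrix fun a b => by unfold wt; fun_prop)
  obtain ⟨θ, hθ, e⟩ := intermediate_value_Icc hρ0 hc.continuousOn ⟨c0, c1⟩
  have := step θ hθ e.le
  simp only at e
  linarith

end Crest.Agent.N334.AC
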