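import Crest.Agent.N334.AC.L.Basic

/-! # S0520 part L: closing one port (leaf).
`close_En`: with `t = τ/γ_y`, `α = K y ·`, `K' a b = K a b - t α_a α_b` off `y`, `K' y · = 0`,
`|t|² μ = 1 + Re (i t S_yy)`, and unitarity gives `∑_{b ≠ y} conj(K a b) α_b = (i/2)(conj α_a S_yy - α_a)`. -/

set_option autoImplicit false
set_option linter.unusedSectionVars false

open Finset Complex
open scoped Matrix.Norms.L2Operator Matrix

namespace Crest.Agent.N334.AC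

variable {ι : Type} [Fintype ι] [DecidableEq ι] {A : Matrix ι ι ℂ} {w : ι → ℂ} {y : ι} {v : ℝ}

lemma gam_cls_self (w : ι → ℂ) (y : ι) (v : ℝ) : gam (cls1 w y v) y = 0 := by
  simp [gam, cls1]
lemma gam_cls_ne (w : ι → ℂ) (v : ℝ) {x : ι} (h : x ≠ y) : gam (cls1 w y v) x = gam w x := by
  simp [gam, cls1, h]

namespace Clo

lemma tau_mul {g w : ℂ} {v : ℝ} (hy : 1 + ((v : ℂ) - w) * g ≠ 0) :
    tau g w v = ((v : ℂ) - w) * (1 - tau g w v * g) := by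
  have : tau g w v * (1 + ((v : ℂ) - w) * g) = v - w := div_mul_cancel₀ _ hy
  linear_combination this

lemma mul_eq (h : Adm A w) (hy : 1 + ((v : ℂ) - w y) * Gm A w y y ≠ 0) :
    Hm A (cls1 w y v) * Matrix.of (fun a b =>
      Gm A w a b - tau (Gm A w y y) (w y) v * Gm A w a y * Gm A w y b) = 1 := by
  have e : Hm A (cls1 w y v) = Hm A w + Matrix.diagonal (Pi.single y ((v : ℂ) - w y)) := by
    rw [Hm, Hm, add_assoc, Matrix.diagonal_add]
    congr 2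
    funext x
    by_cases hx : x = y
    · simp [cls1, hx]
    · simp [cls1, hx]
  have h1 : ∀ a b, ∑ c, Hm A w a c * Gm A w c b = (1 : Matrix ι ι ℂ) a b := fun a b =>
    congrFun (congrFun (Matrix.mul_nonsing_inv _ h.inv) a) b
  ext a b
  rw [e, add_mul, Matrix.add_apply, Matrix.diagonal_mul, Matrix.mul_apply]
  have e2 : ∑ c, Hm A w a c * Matrix.of (fun a b =>
      Gm A w a b - tau (Gm A w y y) (w y) v * Gm A w a y * Gm A w y b) c b =
      ∑ c, Hm A w a c * Gm A w c b -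
        tau (Gm A w y y) (w y) v * (∑ c, Hm A w a c * Gm A w c y) * Gm A w y b := by
    rw [mul_sum, sum_mul, ← sum_sub_distrib]
    exact sum_congr rfl fun c _ => by rw [Matrix.of_apply]; ring
  rw [e2, h1, h1, Matrix.of_apply]
  by_cases ha : a = y
  · rw [ha, Matrix.one_apply_eq, Pi.single_eq_same]
    linear_combination -Gm A w y b * tau_mul hy
  · rw [Matrix.one_apply_ne ha, Pi.single_eq_of_ne ha]
    ring

lemma tid {t g δ : ℂ} {γ : ℝ} (hγ : 0 < γ) (hδ : δ.im = γ) (h : γ * t = δ * (1 - γ * t * g)) :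
    ‖t‖ ^ 2 * (γ * (g.im - γ * ‖g‖ ^ 2)) = 1 + (I * t * (1 + 2 * I * (γ * g))).re := by
  have ha := congrArg re h
  have hb := congrArg im h
  simp only [Complex.sq_norm, normSq_apply, mul_re, mul_im, sub_re, sub_im, add_re, add_im, one_re,
    one_im, ofReal_re, ofReal_im, I_re, I_im, re_ofNat, im_ofNat, hδ] at ha hb ⊢
  refine mul_left_cancel₀ hγ.ne' ?_
  linear_combination (1 - γ * (t.re * g.re - t.im * g.im)) * hb +
    γ * (t.re * g.im + t.im * g.re) * ha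

lemma eq_zero_of_mu {K : Matrix ι ι ℂ} (h : mu K y = 0) {b : ι} (hb : b ≠ y) : K y b = 0 := by
  have := (sum_eq_zero_iff_of_nonneg fun _ _ => by positivity).1 h b (by simp [hb])
  simpa using this

lemma mu_mul_Vm (K : Matrix ι ι ℂ) (y : ι) (f : ι → ℂ) :
    (mu K y : ℂ) * Vm K y f = ∑ b ∈ univ.erase y, ((‖K y b‖ ^ 2 : ℝ) : ℂ) * f b := by
  by_cases h : mu K y = 0
  · rw [h, ofReal_zero, zero_mul]
    exact (sum_eq_zero fun b hb => by simp [eq_zero_of_mu h (ne_of_mem_erase hb)]).symm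
  · exact mul_div_cancel₀ _ (ofReal_ne_zero.2 h)

lemma centred (K : Matrix ι ι ℂ) (y : ι) (f : ι → ℂ) :
    ∑ b ∈ univ.erase y, ((‖K y b‖ ^ 2 : ℝ) : ℂ) * (f b - Vm K y f) = 0 := by
  simp only [mul_sub, sum_sub_distrib, ← mu_mul_Vm, ← sum_mul, ← ofReal_sum]
  exact sub_self _

lemma Vm_real (K : Matrix ι ι ℂ) (y : ι) (f : ι → ℝ) :
    ((Vm K y fun x => (f x : ℂ)).re : ℂ) = Vm K y fun x => (f x : ℂ) := by
  simp only [Vm, ← ofReal_mul, ← ofReal_sum, ← ofReal_div, ofReal_re]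

lemma form (K : Matrix ι ι ℂ) (y : ι) (f g : ι → ℂ) : f ⬝ᵥ Xm K y *ᵥ g =
    I * ((fun a => K y a * (Rm K y *ᵥ f) a) ⬝ᵥ (Sm K).map (starRingEnd ℂ) *ᵥ
      fun b => K y b * (Rm K y *ᵥ g) b) := by
  rw [Xm, ← Matrix.mulVec_mulVec, ← Matrix.mulVec_mulVec, Matrix.dotProduct_mulVec,
    Matrix.vecMul_transpose]
  generalize Rm K y *ᵥ f = f'
  generalize Rm K y *ᵥ g = g'
  simp only [dotProduct, Matrix.mulVec, mul_sum, Matrix.of_apply, Matrix.map_apply]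
  exact sum_congr rfl fun a _ => sum_congr rfl fun b _ => by ring

lemma mesh (s : Finset ι) {K : ι → ι → ℂ} (hK : ∀ a b, K a b = K b a) {α : ι → ℂ} {φ : ι → ℝ}
    {t S : ℂ}
    (hu : ∀ a ∈ s, ∑ b ∈ s, (starRingEnd ℂ) (K a b) * α b =
      I / 2 * ((starRingEnd ℂ) (α a) * S - α a))
    (h0 : ∑ a ∈ s, ‖α a‖ ^ 2 * φ a = 0) (ht : ‖t‖ ^ 2 * ∑ a ∈ s, ‖α a‖ ^ 2 = 1 + (I * t * S).re) :
    1 / 2 * ∑ a ∈ s, ∑ b ∈ s, ‖K a b - t * α a * α b‖ ^ 2 * (φ a - φ b) ^ 2 =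
      1 / 2 * ∑ a ∈ s, ∑ b ∈ s, ‖K a b‖ ^ 2 * (φ a - φ b) ^ 2 + ∑ a ∈ s, ‖α a‖ ^ 2 * φ a ^ 2 +
        (t * (I * ∑ a ∈ s, (α a * φ a) ^ 2 + 2 * ∑ a ∈ s, ∑ b ∈ s,
          α a * φ a * ((starRingEnd ℂ) (K a b) * (α b * φ b)))).re := by
  have T1 : ∑ a ∈ s, ∑ b ∈ s, (starRingEnd ℂ) (K a b) * α a * α b * (φ a : ℂ) ^ 2 =
      I / 2 * (S * (∑ a ∈ s, ‖α a‖ ^ 2 * φ a ^ 2 : ℝ) - ∑ a ∈ s, (α a * φ a) ^ 2) := by
    rw [ofReal_sum, mul_sum, ← sum_sub_distrib, mul_sum]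
    refine sum_congr rfl fun a ha => ?_
    have e : ∑ b ∈ s, (starRingEnd ℂ) (K a b) * α a * α b * (φ a : ℂ) ^ 2 =
        α a * (φ a : ℂ) ^ 2 * ∑ b ∈ s, (starRingEnd ℂ) (K a b) * α b := by
      rw [mul_sum]; exact sum_congr rfl fun b _ => by ring
    rw [e, hu a ha]
    push_cast
    rw [← mul_conj']
    ring
  have T2 : ∑ a ∈ s, ∑ b ∈ s, (starRingEnd ℂ) (K a b) * α a * α b * (φ b : ℂ) ^ 2 =
      ∑ a ∈ s, ∑ b ∈ s, (starRingEnd ℂ) (K a b) * α a * α b * (φ a : ℂ) ^ 2 := by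
    rw [sum_comm]
    exact sum_congr rfl fun a _ => sum_congr rfl fun b _ => by rw [hK b a]; ring
  have T3 : ∑ a ∈ s, ∑ b ∈ s, (starRingEnd ℂ) (K a b) * α a * α b * ((φ a - φ b) ^ 2 : ℝ) =
      I * S * (∑ a ∈ s, ‖α a‖ ^ 2 * φ a ^ 2 : ℝ) - (I * ∑ a ∈ s, (α a * φ a) ^ 2 +
        2 * ∑ a ∈ s, ∑ b ∈ s, α a * φ a * ((starRingEnd ℂ) (K a b) * (α b * φ b))) := by
    have e : ∑ a ∈ s, ∑ b ∈ s, (starRingEnd ℂ) (K a b) * α a * α b * ((φ a - φ b) ^ 2 : ℝ) =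
        ∑ a ∈ s, ∑ b ∈ s, (starRingEnd ℂ) (K a b) * α a * α b * (φ a : ℂ) ^ 2 +
        ∑ a ∈ s, ∑ b ∈ s, (starRingEnd ℂ) (K a b) * α a * α b * (φ b : ℂ) ^ 2 -
        2 * ∑ a ∈ s, ∑ b ∈ s, α a * φ a * ((starRingEnd ℂ) (K a b) * (α b * φ b)) := by
      simp only [mul_sum, ← sum_add_distrib, ← sum_sub_distrib]
      exact sum_congr rfl fun a _ => sum_congr rfl fun b _ => by push_cast; ring
    rw [e, T2, T1]
    ring
  have T4 : ∑ a ∈ s, ∑ b ∈ s, ‖α a‖ ^ 2 * ‖α b‖ ^ 2 * (φ a - φ b) ^ 2 =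
      2 * ((∑ a ∈ s, ‖α a‖ ^ 2) * ∑ a ∈ s, ‖α a‖ ^ 2 * φ a ^ 2) := by
    have e : ∑ a ∈ s, ∑ b ∈ s, ‖α a‖ ^ 2 * ‖α b‖ ^ 2 * (φ a - φ b) ^ 2 =
        (∑ a ∈ s, ‖α a‖ ^ 2 * φ a ^ 2) * (∑ a ∈ s, ‖α a‖ ^ 2) +
        (∑ a ∈ s, ‖α a‖ ^ 2) * (∑ a ∈ s, ‖α a‖ ^ 2 * φ a ^ 2) -
        2 * ((∑ a ∈ s, ‖α a‖ ^ 2 * φ a) * ∑ a ∈ s, ‖α a‖ ^ 2 * φ a) := by
      simp only [sum_mul_sum]
      simp only [mul_sum, ← sum_add_distrib, ← sum_sub_distrib]
      exact sum_congr rfl fun a _ => sum_congr rfl fun b _ => by ring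
    rw [e, h0]
    ring
  have T5 : ∑ a ∈ s, ∑ b ∈ s, ‖K a b - t * α a * α b‖ ^ 2 * (φ a - φ b) ^ 2 =
      ∑ a ∈ s, ∑ b ∈ s, ‖K a b‖ ^ 2 * (φ a - φ b) ^ 2 - 2 * (t * ∑ a ∈ s, ∑ b ∈ s,
        (starRingEnd ℂ) (K a b) * α a * α b * ((φ a - φ b) ^ 2 : ℝ)).re +
        ‖t‖ ^ 2 * ∑ a ∈ s, ∑ b ∈ s, ‖α a‖ ^ 2 * ‖α b‖ ^ 2 * (φ a - φ b) ^ 2 := by
    simp only [mul_sum, re_sum, ← sum_add_distrib, ← sum_sub_distrib]
    refine sum_congr rfl fun a _ => sum_congr rfl fun b _ => ?_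
    generalize (φ a - φ b) ^ 2 = r
    simp only [Complex.sq_norm, normSq_apply, mul_re, mul_im, sub_re, sub_im, conj_re, conj_im,
      ofReal_re, ofReal_im]
    ring
  rw [T5, T3, T4, mul_sub, sub_re, show ∀ Q : ℝ, (t * (I * S * Q)).re = (I * t * S).re * Q from
    fun Q => by rw [← re_mul_ofReal]; congr 1; ring]
  linear_combination (∑ a ∈ s, ‖α a‖ ^ 2 * φ a ^ 2) * ht

end Clo

open Clo

lemma Adm.close (h : Adm A w) (hy : 1 + ((v : ℂ) - w y) * Gm A w y y ≠ 0) : Adm A (cls1 w y v) := by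
  refine ⟨h.symm, h.herm, fun x => ?_, Matrix.isUnit_det_of_right_inverse (Clo.mul_eq h hy)⟩
  by_cases hx : x = y
  · rw [hx, gam_cls_self]
  · rw [gam_cls_ne w v hx]; exact h.diss x

lemma Adm.close_G (h : Adm A w) (hy : 1 + ((v : ℂ) - w y) * Gm A w y y ≠ 0) (a b : ι) :
    Gm A (cls1 w y v) a b = Gm A w a b - tau (Gm A w y y) (w y) v * Gm A w a y * Gm A w y b := by
  rw [Gm, Matrix.inv_eq_right_inv (Clo.mul_eq h hy), Matrix.of_apply]

lemma Adm.close_K (h : Adm A w) (hy : 1 + ((v : ℂ) - w y) * Gm A w y y ≠ 0) (hγ : 0 < gam w y)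
    {a b : ι} (ha : a ≠ y) (hb : b ≠ y) :
    Km A (cls1 w y v) a b =
      Km A w a b - tau (Gm A w y y) (w y) v / (gam w y : ℝ) * Km A w a y * Km A w y b := by
  have e : (√(gam w y) : ℂ) * √(gam w y) = gam w y := by
    rw [← ofReal_mul, Real.mul_self_sqrt hγ.le]
  have h0 : (gam w y : ℂ) ≠ 0 := ofReal_ne_zero.2 hγ.ne'
  have e2 : Km A w a y * Km A w y b =
      gam w y * (√(gam w a) * (Gm A w a y * Gm A w y b) * √(gam w b)) := by
    rw [← e, Km, Km]; ring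
  rw [mul_assoc, e2, ← mul_assoc, div_mul_cancel₀ _ h0, Km, Km, gam_cls_ne w v ha,
    gam_cls_ne w v hb, h.close_G hy]
  ring

lemma close_K_self (b : ι) : Km A (cls1 w y v) y b = 0 ∧ Km A (cls1 w y v) b y = 0 := by
  simp [Km, gam_cls_self]

/-- `|τ|² ι = γ - 2γ Re (τ G) - Im τ` -/
lemma Adm.tau_id (h : Adm A w) (hy : 1 + ((v : ℂ) - w y) * Gm A w y y ≠ 0) (hγ : 0 < gam w y) :
    ‖tau (Gm A w y y) (w y) v / (gam w y : ℝ)‖ ^ 2 * mu (Km A w) y =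
      1 + (I * (tau (Gm A w y y) (w y) v / (gam w y : ℝ)) * Sm (Km A w) y y).re := by
  have h0 : (gam w y : ℂ) ≠ 0 := ofReal_ne_zero.2 hγ.ne'
  have e : Sm (Km A w) y y = 1 + 2 * I * (gam w y * Gm A w y y) := by
    rw [← h.K_diag]; simp [Sm]
  rw [h.mu_eq, e]
  refine tid (δ := v - w y) hγ (by simp [gam]) ?_
  rw [mul_div_cancel₀ _ h0]
  exact tau_mul hy

lemma Rm_mulVec (K : Matrix ι ι ℂ) (y : ι) (f : ι → ℂ) (b : ι) :
    (Rm K y *ᵥ f) b = if b = y then 0 else f b - Vm K y f := by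
  split_ifs with hb
  · simp [Matrix.mulVec, dotProduct, Rm, hb]
  · rw [Matrix.mulVec, dotProduct, ← add_sum_erase _ _ (mem_univ y), Vm, sum_div]
    have e : f b = ∑ c ∈ univ.erase y, (if b = c then 1 else 0) * f c := by simp [hb]
    rw [e, ← sum_sub_distrib, Rm, if_pos (Or.inr rfl), zero_mul, zero_add]
    refine sum_congr rfl fun c hc => ?_
    rw [Rm, if_neg (not_or.2 ⟨hb, ne_of_mem_erase hc⟩)]
    push_cast
    ring

lemma Xm_symm (h : Adm A w) (y : ι) : (Xm (Km A w) y)ᵀ = Xm (Km A w) y := by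
  rw [Xm, Matrix.transpose_mul, Matrix.transpose_mul, Matrix.transpose_transpose, mul_assoc,
    ← mul_assoc, ← mul_assoc]
  congr 2
  ext a b
  have : Sm (Km A w) b a = Sm (Km A w) a b := by
    simp [Sm, h.K_sym b a, Matrix.one_apply, eq_comm]
  rw [Matrix.transpose_apply, Matrix.of_apply, Matrix.of_apply, this]
  ring

/-- variance is below any second moment -/
lemma var_le (K : Matrix ι ι ℂ) (y : ι) (f : ι → ℂ) (c : ℂ) :
    ∑ b ∈ univ.erase y, ‖K y b‖ ^ 2 * ‖f b - Vm K y f‖ ^ 2 ≤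
      ∑ b ∈ univ.erase y, ‖K y b‖ ^ 2 * ‖f b - c‖ ^ 2 := by
  have e : 0 = ∑ b ∈ univ.erase y,
      2 * (((‖K y b‖ ^ 2 : ℝ) : ℂ) * (f b - Vm K y f) * (starRingEnd ℂ) (Vm K y f - c)).re := by
    rw [← mul_sum, ← re_sum, ← sum_mul, centred, zero_mul, zero_re, mul_zero]
  rw [← add_zero (∑ b ∈ univ.erase y, ‖K y b‖ ^ 2 * ‖f b - Vm K y f‖ ^ 2), e, ← sum_add_distrib]
  refine sum_le_sum fun b _ => ?_
  rw [mul_assoc, re_ofReal_mul, show f b - c = (f b - Vm K y f) + (Vm K y f - c) by ring,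
    Complex.sq_norm (_ + _), normSq_add, ← Complex.sq_norm, ← Complex.sq_norm]
  nlinarith [mul_nonneg (sq_nonneg ‖K y b‖) (sq_nonneg ‖Vm K y f - c‖)]

lemma Adm.Xm_le (h : Adm A w) (y : ι) (f g : ι → ℂ) (c c' : ℂ) :
    ‖f ⬝ᵥ Xm (Km A w) y *ᵥ g‖ ^ 2 ≤
      (∑ b ∈ univ.erase y, ‖Km A w y b‖ ^ 2 * ‖f b - c‖ ^ 2) *
        ∑ b ∈ univ.erase y, ‖Km A w y b‖ ^ 2 * ‖g b - c'‖ ^ 2 := by
  have e : ∀ (f : ι → ℂ) (c : ℂ), nsq (fun a => Km A w y a * (Rm (Km A w) y *ᵥ f) a) ≤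
      ∑ b ∈ univ.erase y, ‖Km A w y b‖ ^ 2 * ‖f b - c‖ ^ 2 := fun f c => by
    refine le_trans (le_of_eq ?_) (var_le _ y f c)
    rw [nsq, ← add_sum_erase _ _ (mem_univ y), Rm_mulVec, if_pos rfl, mul_zero, norm_zero,
      zero_pow two_ne_zero, zero_add]
    exact sum_congr rfl fun b hb => by
      rw [Rm_mulVec, if_neg (ne_of_mem_erase hb), norm_mul, mul_pow]
  have e2 : ∀ u : ι → ℂ, nsq ((Sm (Km A w)).map (starRingEnd ℂ) *ᵥ u) = nsq u := fun u => by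
    rw [← nsq_star u, ← h.S_nsq (star u), ← nsq_star]
    congr 1
    funext a
    simp [Matrix.mulVec, dotProduct]
  rw [form, norm_mul, norm_I, one_mul]
  refine (cs' _ _).trans ?_
  rw [e2]
  exact mul_le_mul (e f c) (e g c') (nsq_nonneg _) (sum_nonneg fun _ _ => by positivity)

/-- the speckle form is shift invariant and only sees ports other than `y` -/
lemma Xm_form_congr (y : ι) {f g : ι → ℂ} (c : ℂ)
    (hfg : ∀ x, x ≠ y → gam w x ≠ 0 → f x = g x + c) :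
    f ⬝ᵥ Xm (Km A w) y *ᵥ f = g ⬝ᵥ Xm (Km A w) y *ᵥ g := by
  have k0 : ∀ x, gam w x = 0 → Km A w y x = 0 := fun x hx => by simp [Km, hx]
  have e : (fun a => Km A w y a * (Rm (Km A w) y *ᵥ f) a) =
      fun a => Km A w y a * (Rm (Km A w) y *ᵥ g) a := by
    funext a
    rw [Rm_mulVec, Rm_mulVec]
    split_ifs with ha
    · rfl
    by_cases h1 : gam w a = 0
    · rw [k0 a h1, zero_mul, zero_mul]
    by_cases h2 : mu (Km A w) y = 0
    · rw [eq_zero_of_mu h2 ha, zero_mul, zero_mul]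
    have e1 : Vm (Km A w) y f = Vm (Km A w) y g + c := by
      refine mul_left_cancel₀ (ofReal_ne_zero.2 h2) ?_
      rw [mul_add, mu_mul_Vm, mu_mul_Vm, mu, ofReal_sum, sum_mul, ← sum_add_distrib]
      refine sum_congr rfl fun b hb => ?_
      by_cases h3 : gam w b = 0
      · simp [k0 b h3]
      · rw [hfg b (ne_of_mem_erase hb) h3, mul_add]
    rw [e1, hfg a ha h1]
    ring
  rw [form, form, e]

lemma Adm.close_En (h : Adm A w) (hy : 1 + ((v : ℂ) - w y) * Gm A w y y ≠ 0) (hγ : 0 < gam w y)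
    (f : ι → ℝ) :
    En (Km A (cls1 w y v)) f = En (Km A w) f -
      mu (Km A w) y * (f y - (Vm (Km A w) y fun x => (f x : ℂ)).re) ^ 2 +
      (tau (Gm A w y y) (w y) v / (gam w y : ℝ) *
        ((fun x => (f x : ℂ)) ⬝ᵥ Xm (Km A w) y *ᵥ fun x => (f x : ℂ))).re := by
  obtain ⟨φ, hφ⟩ : ∃ φ : ι → ℝ, ∀ a, φ a = f a - (Vm (Km A w) y fun x => (f x : ℂ)).re :=
    ⟨_, fun _ => rfl⟩
  have hφ' : ∀ a, (φ a : ℂ) = f a - Vm (Km A w) y fun x => (f x : ℂ) := fun a => by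
    rw [hφ, ofReal_sub, Vm_real]
  have d : ∀ a b, f a - f b = φ a - φ b := fun a b => by rw [hφ, hφ]; ring
  have h0 : ∑ a ∈ univ.erase y, ‖Km A w y a‖ ^ 2 * φ a = 0 := by
    have := centred (Km A w) y fun x => (f x : ℂ)
    simp only [← hφ'] at this
    exact_mod_cast this
  have hS : ∀ a b, (starRingEnd ℂ) (Sm (Km A w) a b) =
      (if a = b then 1 else 0) - 2 * I * (starRingEnd ℂ) (Km A w a b) := fun a b => by
    by_cases hab : a = b <;> simp [Sm, hab, map_ofNat, sub_eq_add_neg]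
  have hu : ∀ a ∈ univ.erase y, ∑ b ∈ univ.erase y, (starRingEnd ℂ) (Km A w a b) * Km A w y b =
      I / 2 * ((starRingEnd ℂ) (Km A w y a) * Sm (Km A w) y y - Km A w y a) := fun a ha => by
    have h1 := congrFun (congrFun h.S_mul a) y
    rw [Matrix.one_apply_ne (ne_of_mem_erase ha), Matrix.mul_apply,
      ← add_sum_erase _ _ (mem_univ y), Matrix.map_apply, hS, if_neg (ne_of_mem_erase ha)] at h1
    have h2 : ∑ b ∈ univ.erase y, (Sm (Km A w)).map (starRingEnd ℂ) a b * Sm (Km A w) b y =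
        ∑ b ∈ univ.erase y, (if a = b then 1 else 0) * (2 * I * Km A w y b) +
          4 * ∑ b ∈ univ.erase y, (starRingEnd ℂ) (Km A w a b) * Km A w y b := by
      rw [mul_sum, ← sum_add_distrib]
      refine sum_congr rfl fun b hb => ?_
      have : Sm (Km A w) b y = 2 * I * Km A w y b := by
        simp [Sm, Matrix.one_apply_ne (ne_of_mem_erase hb), h.K_sym b y]
      rw [Matrix.map_apply, hS, this]
      linear_combination -4 * (starRingEnd ℂ) (Km A w a b) * Km A w y b * I_mul_I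
    simp only [h2, ite_mul, one_mul, zero_mul, sum_ite_eq, ha, if_true, h.K_sym a y] at h1
    linear_combination h1 / 4
  have key := mesh (univ.erase y) h.K_sym hu h0 (h.tau_id hy hγ)
  have e1 : En (Km A (cls1 w y v)) f = 1 / 2 * ∑ a ∈ univ.erase y, ∑ b ∈ univ.erase y,
      ‖Km A w a b - tau (Gm A w y y) (w y) v / (gam w y : ℝ) * Km A w y a * Km A w y b‖ ^ 2 *
        (φ a - φ b) ^ 2 := by
    rw [En, ← add_sum_erase _ _ (mem_univ y), sum_eq_zero fun b _ => by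
      rw [(close_K_self b).1, norm_zero, zero_pow two_ne_zero, zero_mul], zero_add]
    congr 1
    refine sum_congr rfl fun a ha => ?_
    rw [← add_sum_erase _ _ (mem_univ y), (close_K_self a).2, norm_zero, zero_pow two_ne_zero,
      zero_mul, zero_add]
    exact sum_congr rfl fun b hb => by
      rw [h.close_K hy hγ (ne_of_mem_erase ha) (ne_of_mem_erase hb), d, h.K_sym a y]
  have e2 : En (Km A w) f = 1 / 2 * ∑ a ∈ univ.erase y, ∑ b ∈ univ.erase y,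
      ‖Km A w a b‖ ^ 2 * (φ a - φ b) ^ 2 +
        ∑ a ∈ univ.erase y, ‖Km A w y a‖ ^ 2 * (φ y - φ a) ^ 2 := by
    have : ∀ a ∈ univ.erase y, ∑ b, ‖Km A w a b‖ ^ 2 * (φ a - φ b) ^ 2 =
        ‖Km A w y a‖ ^ 2 * (φ y - φ a) ^ 2 +
          ∑ b ∈ univ.erase y, ‖Km A w a b‖ ^ 2 * (φ a - φ b) ^ 2 := fun a _ => by
      rw [← add_sum_erase _ _ (mem_univ y), h.K_sym a y]; ring
    simp only [En, d]
    rw [← add_sum_erase _ _ (mem_univ y), sum_congr rfl this, sum_add_distrib,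
      ← add_sum_erase _ _ (mem_univ y)]
    ring
  have e3 : ∑ a ∈ univ.erase y, ‖Km A w y a‖ ^ 2 * (φ y - φ a) ^ 2 =
      mu (Km A w) y * φ y ^ 2 + ∑ a ∈ univ.erase y, ‖Km A w y a‖ ^ 2 * φ a ^ 2 -
        2 * φ y * ∑ a ∈ univ.erase y, ‖Km A w y a‖ ^ 2 * φ a := by
    rw [mu, sum_mul, mul_sum, ← sum_add_distrib, ← sum_sub_distrib]
    exact sum_congr rfl fun a _ => by ring
  have e4 : ((fun x => (f x : ℂ)) ⬝ᵥ Xm (Km A w) y *ᵥ fun x => (f x : ℂ)) =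
      I * ∑ a ∈ univ.erase y, (Km A w y a * φ a) ^ 2 + 2 * ∑ a ∈ univ.erase y,
        ∑ b ∈ univ.erase y,
          Km A w y a * φ a * ((starRingEnd ℂ) (Km A w a b) * (Km A w y b * φ b)) := by
    have r : ∀ a, (Rm (Km A w) y *ᵥ fun x => (f x : ℂ)) a = if a = y then 0 else (φ a : ℂ) :=
      fun a => by rw [Rm_mulVec, hφ']
    rw [form, dotProduct, ← add_sum_erase _ _ (mem_univ y), r, if_pos rfl, mul_zero, zero_mul,
      zero_add, mul_sum, mul_sum, mul_sum, ← sum_add_distrib]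
    refine sum_congr rfl fun a ha => ?_
    have : (Km A w y a * φ a) ^ 2 = ∑ b ∈ univ.erase y,
        (if a = b then 1 else 0) * (Km A w y a * φ a * (Km A w y b * φ b)) := by
      simp only [ite_mul, one_mul, zero_mul, sum_ite_eq, ha, if_true, sq]
    rw [this, r, if_neg (ne_of_mem_erase ha), Matrix.mulVec, dotProduct,
      ← add_sum_erase _ _ (mem_univ y), r, if_pos rfl, mul_zero, mul_zero, zero_add, mul_sum,
      mul_sum, mul_sum, mul_sum, ← sum_add_distrib]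
    refine sum_congr rfl fun b hb => ?_
    rw [r, if_neg (ne_of_mem_erase hb), Matrix.map_apply, hS]
    linear_combination -2 * Km A w y a * φ a * (starRingEnd ℂ) (Km A w a b) * Km A w y b * φ b *
      I_mul_I
  rw [e1, key, e2, e3, e4, h0, ← hφ]
  ring

lemma Adm.norm_cmp_close (h : Adm A w) (hy : 1 + ((v : ℂ) - w y) * Gm A w y y ≠ 0) {O : Finset ι}
    (hO : y ∈ O) : ‖cmp (Gm A (cls1 w y v)) O‖ ≤
      ‖cmp (Gm A w) O‖ + ‖tau (Gm A w y y) (w y) v‖ * ‖cmp (Gm A w) O‖ ^ 2 := by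
  have e : cmp (Gm A (cls1 w y v)) O = cmp (Gm A w) O - tau (Gm A w y y) (w y) v •
      (cmp (Gm A w) O * Matrix.diagonal (Pi.single y 1) * cmp (Gm A w) O) := by
    ext a b
    rw [Matrix.sub_apply, Matrix.smul_apply, Matrix.mul_apply, sum_eq_single y, Matrix.mul_diagonal,
      Pi.single_eq_same]
    · by_cases ha : a ∈ O <;> by_cases hb : b ∈ O <;> simp [cmp, ha, hb, hO, h.close_G hy, mul_assoc]
    · intro c _ hc
      rw [Matrix.mul_diagonal, Pi.single_eq_of_ne hc, mul_zero, zero_mul]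
    · simp
  have h1 : ‖Matrix.diagonal (Pi.single y 1 : ι → ℂ)‖ ≤ 1 := norm_diagonal_le zero_le_one fun x => by
    by_cases hx : x = y <;> simp [hx]
  rw [e]
  refine (norm_sub_le _ _).trans ?_
  rw [norm_smul, sq]
  gcongr
  refine (norm_mul_le _ _).trans (mul_le_mul_of_nonneg_right ((norm_mul_le _ _).trans ?_)
    (norm_nonneg _))
  exact mul_le_of_le_one_right (norm_nonneg _) h1

end Crest.Agent.N334.AC
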