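import Crest.Agent.N334.AC.F.Mon
import Crest.Agent.N334.AC.Geo

/-! # S0520 part L (helper27): matrix layer, DEFINITIONS -/

set_option autoImplicit false

open Finset Complex
open scoped Matrix.Norms.L2Operator Matrix

namespace Crest.Agent.N334.AC

section Gen

variable {ι : Type} [Fintype ι] [DecidableEq ι]

/-- scattering matrix -/
noncomputable def Sm (K : Matrix ι ι ℂ) : Matrix ι ι ℂ := 1 + (2 * I) • K

/-- conductance leaving `y` -/
noncomputable def mu (K : Matrix ι ι ℂ) (y : ι) : ℝ := ∑ b ∈ univ.erase y, ‖K y b‖ ^ 2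

/-- mean of `f` seen from `y` -/
noncomputable def Vm (K : Matrix ι ι ℂ) (y : ι) (f : ι → ℂ) : ℂ :=
  (∑ b ∈ univ.erase y, ((‖K y b‖ ^ 2 : ℝ) : ℂ) * f b) / (mu K y : ℝ)

/-- centring matrix: `(Rm f) b = f b - V` for `b ≠ y`, `0` at `y` -/
noncomputable def Rm (K : Matrix ι ι ℂ) (y : ι) : Matrix ι ι ℂ := fun b c =>
  if b = y ∨ c = y then 0 else (if b = c then 1 else 0) - ((‖K y c‖ ^ 2 / mu K y : ℝ) : ℂ)

/-- speckle form of the closing of `y` -/
noncomputable def Xm (K : Matrix ι ι ℂ) (y : ι) : Matrix ι ι ℂ :=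
  (Rm K y)ᵀ * (Matrix.of fun a b => I * K y a * (starRingEnd ℂ) (Sm K a b) * K y b) * Rm K y

/-- rank-one coefficient -/
noncomputable def tau (g w : ℂ) (v : ℝ) : ℂ := ((v : ℂ) - w) / (1 + ((v : ℂ) - w) * g)

/-- bias -/
noncomputable def beta (σ : ℝ) (N : ℕ) (r : ℝ) (g w : ℂ) : ℂ := avgV N fun k => tau g w (val σ N r k)

/-- closing one port -/
def cls1 (w : ι → ℂ) (y : ι) (v : ℝ) : ι → ℂ := Function.update w y (v : ℂ)

/-- closing a set of ports -/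
def wCl (w : ι → ℂ) (B : Finset ι) (v : ι → ℝ) : ι → ℂ := fun x => if x ∈ B then (v x : ℂ) else w x

/-- closing a set of ports, keeping an absorption `η` -/
def wEta (w : ι → ℂ) (B : Finset ι) (v : ι → ℝ) (η : ℝ) : ι → ℂ := fun x =>
  if x ∈ B then (v x : ℂ) - η * I else w x

/-- compression to `Q × Q` -/
def cmp (X : Matrix ι ι ℂ) (Q : Finset ι) : Matrix ι ι ℂ := fun a b =>
  if a ∈ Q ∧ b ∈ Q then X a b else 0

/-- block read along `e`, masked by `Q` -/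
def blk {B : Type} (X : Matrix ι ι ℂ) (e : B → ι) (Q : Finset ι) : Matrix B B ℂ := fun u v =>
  if e u ∈ Q ∧ e v ∈ Q then X (e u) (e v) else 0

/-- support condition -/
def Supp {V : Type} [Zero V] (x : ι → V) (Q : Finset ι) : Prop := ∀ a, a ∉ Q → x a = 0

/-- exponential twist -/
noncomputable def wt (θ : ℝ) (φ : ι → ℝ) (X : Matrix ι ι ℂ) : Matrix ι ι ℂ := fun a b =>
  (Real.exp (θ * (φ a - φ b)) : ℂ) * X a b

/-- the leverage of the row `a` against the columns `B` is at most `ε` (dual form) -/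
def LevD (K : Matrix ι ι ℂ) (B : Finset ι) (ε ζ : ℝ) (a : ι) : Prop :=
  ∀ ξ : ι → ℂ, Supp ξ B →
    ‖(K *ᵥ ξ) a‖ ^ 2 ≤ ε * (∑ x ∈ univ \ B, ‖(K *ᵥ ξ) x‖ ^ 2 + ζ ^ 2 * nsq ξ)

end Gen

section Tor

variable {d M : ℕ} [NeZero M]

/-- all twists by `1`-Lipschitz functions are bounded -/
def TW (θ A : ℝ) (X : Matrix (Tor d M) (Tor d M) ℂ) : Prop :=
  ∀ φ : Tor d M → ℝ, (∀ a b, |φ a - φ b| ≤ tdist a b) → ‖wt θ φ X‖ ≤ A

/-- `R`-neighbourhood -/
def nbhd (B : Finset (Tor d M)) (R : ℕ) : Finset (Tor d M) :=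
  univ.filter fun x => ∃ b ∈ B, tdist x b ≤ R

end Tor

end Crest.Agent.N334.AC
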