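import Crest.Agent.N334.AC.L.Basic
import Crest.Agent.N334.AC.Lev

/-! # S0520 part L: leverage lemma (leaf).
Greedy. Scale `s_b = 1` on `B`, `s_a = √(mu K a)` (`μ1 ≤ mu ≤ 1`) on `Cand`; `W_Z` = rows outside `B ∪ Z`, columns
`b ∈ B ∪ Z` divided by `s_b`; `Φ = log det (W_Zᴴ W_Z + ζ²)`. If the normalised leverage of `a` exceeds `ε`, move
`a` to `Z`: deleting the row multiplies `det` by `≤ 1-ε`, the new column by `≤ 1+ζ²`. `Φ_0 ≤ n ζ²`.
Lower bound: by Ward the Gram matrix of the `Z`-columns over rows outside `Z` is `1+E`, `‖E‖ ≤ 5Je/μ1 ≤ ε/8`;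
on vectors supported in `Z` and killed by the rows in `B` (dimension `≥ |Z| - n`) the form is `≥ 1-ε/8`, so at most
`2n` eigenvalues are below `1-ε/8`, all are `≥ ζ²` (or helper74's rank trick, note 289). Hence `|Z| < J`.
A row of leverage `> ε` has an entry `> ε ζ² μ1/(n+J)` in a column of `B ∪ Z`, which gives the bound on `D`.

Typed proof (helper19): `AC.leverage` (helper74) gives `Z`; by pigeonhole some window
`(D0 + j s, D0 + (j+1) s]`, `j ≤ J`, misses `D(Z)`; keep the part of `Z` below the window. -/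

set_option autoImplicit false

open Finset Complex
open scoped Matrix.Norms.L2Operator Matrix

namespace Crest.Agent.N334.AC

variable {ι : Type} [Fintype ι] [DecidableEq ι] {A : Matrix ι ι ℂ} {w : ι → ℂ}

namespace Lv

lemma pt {k y r : ℂ} {m ρ : ℝ} (hk : ‖k‖ ≤ 1) (hm : k.im = ‖k‖ ^ 2 + m) (hr : ‖r‖ ≤ ρ) :
    m * ‖y‖ ^ 2 - 3 * ρ * ‖y‖ - ρ ^ 2 ≤ (star y * (k * y + r)).im - ‖k * y + r‖ ^ 2 := by
  have h1 : (star y * (k * y + r)).im = k.im * ‖y‖ ^ 2 + (star y * r).im := by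
    rw [Complex.sq_norm, Complex.normSq_apply]
    simp
    ring
  have h2 : -(ρ * ‖y‖) ≤ (star y * r).im := by
    have := (abs_le.1 (Complex.abs_im_le_norm (star y * r))).1
    rw [norm_mul, norm_star] at this
    nlinarith [norm_nonneg y]
  have h3 : ‖k * y + r‖ ≤ ‖k‖ * ‖y‖ + ρ := (norm_add_le _ _).trans (by rw [norm_mul]; linarith)
  have h4 : ‖k * y + r‖ ^ 2 ≤ (‖k‖ * ‖y‖ + ρ) ^ 2 := by gcongr
  have h5 : ‖k‖ * (ρ * ‖y‖) ≤ 1 * (ρ * ‖y‖) :=
    mul_le_mul_of_nonneg_right hk (mul_nonneg ((norm_nonneg r).trans hr) (norm_nonneg y))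
  rw [h1, hm]
  nlinarith

lemma bd (h : Adm A w) : Bd (Km A w) 1 := (bd_iff_norm zero_le_one).2 h.norm_K

lemma mu_nonneg (K : Matrix ι ι ℂ) (a : ι) : 0 ≤ mu K a := sum_nonneg fun _ _ => by positivity

lemma mu_le (h : Adm A w) (a : ι) : mu (Km A w) a ≤ 1 :=
  (sum_le_sum_of_subset_of_nonneg (subset_univ _) fun _ _ _ => by positivity).trans
    (((bd h).row a).trans_eq (one_pow 2))

lemma im_diag (h : Adm A w) (a : ι) : (Km A w a a).im = ‖Km A w a a‖ ^ 2 + mu (Km A w) a := by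
  rw [mu, add_sum_erase _ (fun b => ‖Km A w a b‖ ^ 2) (mem_univ a), h.K_row, h.K_diag,
    Complex.im_ofReal_mul]

omit [Fintype ι] in
lemma cut_of_supp {T : Finset ι} {x : ι → ℂ} (hx : Supp x T) : cut T x = x := by
  funext i
  by_cases hi : i ∈ T
  · simp [cut, hi]
  · simp [cut, hi, hx i hi]

lemma mulVec_cut (K : Matrix ι ι ℂ) (T : Finset ι) (x : ι → ℂ) (a : ι) :
    (K *ᵥ cut T x) a = ∑ b ∈ T, K a b * x b := by
  simp [Matrix.mulVec, dotProduct, cut]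

lemma low (h : Adm A w) {Z : Finset ι} {e : ℝ} (he : 0 ≤ e)
    (hent : ∀ a ∈ Z, ∀ a' ∈ Z, a ≠ a' → ‖Km A w a a'‖ ≤ e) (x : ι → ℂ) :
    ∑ z ∈ Z, mu (Km A w) z * ‖x z‖ ^ 2 - (3 * (e * Z.card) + (e * Z.card) ^ 2) * ∑ z ∈ Z, ‖x z‖ ^ 2 ≤
      nsq (mask Zᶜ Z (Km A w) *ᵥ x) := by
  obtain ⟨S, hS⟩ : ∃ S, S = ∑ z ∈ Z, ‖x z‖ := ⟨_, rfl⟩
  have h1 : S ^ 2 ≤ Z.card * ∑ z ∈ Z, ‖x z‖ ^ 2 := hS ▸ sq_sum_le_card_mul_sum_sq
  have h2 : nsq (mask Zᶜ Z (Km A w) *ᵥ x) = ∑ c ∈ Z, ((star (x c) * (Km A w *ᵥ cut Z x) c).im -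
      ‖(Km A w *ᵥ cut Z x) c‖ ^ 2) := by
    have h3 := nsq_cut_add Z (Km A w *ᵥ cut Z x)
    have h4 : star (cut Z x) ⬝ᵥ Km A w *ᵥ cut Z x = ∑ c ∈ Z, star (x c) * (Km A w *ᵥ cut Z x) c := by
      rw [dotProduct, ← sum_subset (subset_univ Z) fun i _ hi => by simp [cut, hi]]
      exact sum_congr rfl fun i hi => by simp [cut, hi]
    rw [h.K_ward, h4, nsq_cut, Complex.im_sum] at h3
    rw [mask_mulVec, sum_sub_distrib]
    linarith
  have h3 : ∀ c ∈ Z, mu (Km A w) c * ‖x c‖ ^ 2 - 3 * (e * S) * ‖x c‖ - (e * S) ^ 2 ≤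
      (star (x c) * (Km A w *ᵥ cut Z x) c).im - ‖(Km A w *ᵥ cut Z x) c‖ ^ 2 := fun c hc => by
    rw [mulVec_cut, ← add_sum_erase _ _ hc]
    refine pt ((bd h).entry zero_le_one c c) (im_diag h c) ((norm_sum_le _ _).trans ?_)
    rw [hS, mul_sum]
    refine (sum_le_sum fun b hb => ?_).trans
      (sum_le_sum_of_subset_of_nonneg (erase_subset c Z) fun _ _ _ => by positivity)
    rw [norm_mul]
    exact mul_le_mul_of_nonneg_right
      (hent c hc b (mem_of_mem_erase hb) (ne_of_mem_erase hb).symm) (norm_nonneg _)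
  have h4 := sum_le_sum h3
  rw [sum_sub_distrib, sum_sub_distrib, ← mul_sum, ← hS, sum_const, nsmul_eq_mul] at h4
  have h5 := mul_le_mul_of_nonneg_left h1 (show 0 ≤ 3 * e + e ^ 2 * Z.card by positivity)
  rw [h2]
  nlinarith

lemma gap (Z : Finset ι) {J : ℕ} (hZ : Z.card ≤ J) (D : ι → ℕ) (D0 s : ℕ) :
    ∃ j ≤ J, ∀ z ∈ Z, D z ≤ D0 + j * s ∨ D0 + j * s + s < D z := by
  by_contra hc
  push Not at hc
  have : Nonempty ι := ⟨(hc 0 J.zero_le).choose⟩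
  choose! f hf h1 h2 using hc
  have : (range (J + 1)).card ≤ Z.card := by
    refine card_le_card_of_injOn f (fun j hj => hf j (Nat.lt_succ_iff.1 (mem_range.1 hj)))
      fun i hi j hj e => ?_
    have hi := Nat.lt_succ_iff.1 (mem_range.1 hi)
    have hj := Nat.lt_succ_iff.1 (mem_range.1 hj)
    have a1 := h1 i hi
    have a2 := h2 i hi
    have a3 := h1 j hj
    have a4 := h2 j hj
    rw [e] at a1 a2
    rcases lt_trichotomy i j with l | l | l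
    · have := Nat.mul_le_mul_right s (Nat.succ_le_of_lt l)
      rw [Nat.succ_mul] at this
      omega
    · exact l
    · have := Nat.mul_le_mul_right s (Nat.succ_le_of_lt l)
      rw [Nat.succ_mul] at this
      omega
  rw [card_range] at this
  omega

lemma levD_of_le {K : Matrix ι ι ℂ} {T T' : Finset ι} {ε ζ : ℝ} {a : ι} (hε : 0 ≤ ε) (hT : T' ⊆ T)
    (ha : a ∉ T) (h : LevLe K ζ T a ε) : LevD K T' ε ζ a := fun ξ hξ => by
  have h1 := h ξ
  rw [mask_mulVec, cut_of_supp (T := T) fun i hi => hξ i (mt (@hT i) hi), nsq_cut] at h1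
  simp only [cut, mem_compl, ha, not_false_eq_true, if_true] at h1
  refine h1.trans (mul_le_mul_of_nonneg_left (add_le_add_left
    (sum_le_sum_of_subset_of_nonneg (fun i hi => ?_) fun _ _ _ => by positivity) _) hε)
  exact mem_sdiff.2 ⟨mem_univ _, mt (@hT i) (mem_compl.1 hi)⟩

lemma levD_of_mass {K : Matrix ι ι ℂ} {T : Finset ι} {ε ζ : ℝ} {a : ι} (hε : 0 ≤ ε)
    (h : ∑ b ∈ T, ‖K a b‖ ^ 2 ≤ ε * ζ ^ 2) : LevD K T ε ζ a := fun ξ hξ => by
  have h1 : (K *ᵥ ξ) a = cut T (K a) ⬝ᵥ ξ := by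
    rw [← cut_of_supp hξ, mulVec_cut, cut_of_supp hξ]
    simp [dotProduct, cut]
  have h2 := cs' (cut T (K a)) ξ
  rw [nsq_cut, ← h1] at h2
  have h3 := mul_le_mul_of_nonneg_right h (nsq_nonneg ξ)
  have h4 : 0 ≤ ε * ∑ x ∈ univ \ T, ‖(K *ᵥ ξ) x‖ ^ 2 := by positivity
  linarith

end Lv

open Lv in
theorem Adm.leverage (h : Adm A w) {B Cand : Finset ι} (hd : Disjoint B Cand) {ε ζ e μ1 : ℝ} {J : ℕ}
    (hε : 0 < ε) (hε1 : ε ≤ 1 / 2) (hζ : 0 < ζ) (hζ1 : 2 * ζ ^ 2 ≤ ε) (he : 0 ≤ e) (hμ : 0 < μ1)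
    (hmu : ∀ a ∈ Cand, μ1 ≤ mu (Km A w) a)
    (hent : ∀ a ∈ Cand, ∀ a' ∈ Cand, a ≠ a' → ‖Km A w a a'‖ ≤ e)
    (hJ : 20 * B.card * Real.log (2 / ζ) < ε * J) (hJe : 40 * J * e ≤ ε * μ1)
    {D : ι → ℕ} {D0 s : ℕ} (hD0 : ∀ b ∈ B, D b ≤ D0)
    (hD : ∀ a ∈ Cand, ∀ b ∈ B ∪ Cand, D b + s < D a →
      ‖Km A w a b‖ ^ 2 * (B.card + J) ≤ ε * ζ ^ 2 * μ1) :
    ∃ Z ⊆ Cand, Z.card ≤ J ∧ (∀ z ∈ Z, D z ≤ D0 + J * s) ∧
      ∀ a ∈ Cand \ Z, LevD (Km A w) (B ∪ Z) ε ζ a := by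
  have hζ2 : ζ ≤ 1 := by nlinarith
  have hlog : 0 ≤ Real.log (2 / ζ) := Real.log_nonneg ((one_le_div hζ).2 (by linarith))
  have hB : 0 ≤ B.card * Real.log (2 / ζ) := by positivity
  obtain ⟨Z, hZ, hc, hl⟩ := AC.leverage (bd h) B Cand hd hζ hζ2 hε (by linarith) J (mu (Km A w))
    (mu_nonneg _) (fun a _ => (sum_congr rfl fun c _ => by rw [h.K_sym]).le)
    (fun Z hZ hc x => by
      refine le_trans ?_ (low h he (fun a ha b hb => hent a (hZ ha) b (hZ hb)) x)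
      rcases Z.eq_empty_or_nonempty with rfl | ⟨a, ha⟩
      · simp
      have h1 : μ1 ≤ 1 := (hmu a (hZ ha)).trans (mu_le h a)
      have h2 : e * Z.card ≤ e * J := by gcongr
      have h3 : 0 ≤ e * Z.card := by positivity
      have h4 : ε * μ1 ≤ 1 := by nlinarith
      have h5 : 3 * (e * Z.card) + (e * Z.card) ^ 2 ≤ ε / 2 * μ1 := by nlinarith
      have h6 : μ1 * ∑ z ∈ Z, ‖x z‖ ^ 2 ≤ ∑ z ∈ Z, mu (Km A w) z * ‖x z‖ ^ 2 := by
        rw [mul_sum]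
        exact sum_le_sum fun z hz => mul_le_mul_of_nonneg_right (hmu z (hZ hz)) (sq_nonneg _)
      have h7 := mul_le_mul_of_nonneg_right h5
        (show 0 ≤ ∑ z ∈ Z, ‖x z‖ ^ 2 from sum_nonneg fun _ _ => sq_nonneg _)
      nlinarith)
    (by
      have h1 : Real.log (2 / ζ ^ 2) ≤ 2 * Real.log (2 / ζ) := by
        rw [show 2 * Real.log (2 / ζ) = Real.log ((2 / ζ) ^ 2) by rw [Real.log_pow]; norm_num,
          div_pow]
        gcongr
        norm_num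
      have h2 := mul_le_mul_of_nonneg_left h1 (Nat.cast_nonneg (α := ℝ) B.card)
      nlinarith)
  obtain ⟨j, hj, hg⟩ := gap Z hc D D0 s
  refine ⟨Z.filter fun z => D z ≤ D0 + j * s, (filter_subset _ _).trans hZ,
    (card_filter_le _ _).trans hc, fun z hz => (mem_filter.1 hz).2.trans (by gcongr),
    fun a ha => ?_⟩
  obtain ⟨ha, ha'⟩ := mem_sdiff.1 ha
  by_cases haZ : a ∈ Z
  · have h1 : D0 + j * s + s < D a := (hg a haZ).resolve_left fun h' => ha' (mem_filter.2 ⟨haZ, h'⟩)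
    have hJ0 : (0 : ℝ) < B.card + J := by
      have : (0 : ℝ) < J := (mul_pos_iff_of_pos_left hε).1 (by linarith)
      positivity
    refine levD_of_mass hε.le (le_of_mul_le_mul_right ?_ hJ0)
    have h2 : ε * ζ ^ 2 * μ1 ≤ ε * ζ ^ 2 :=
      mul_le_of_le_one_right (by positivity) ((hmu a ha).trans (mu_le h a))
    rw [sum_mul]
    refine (sum_le_card_nsmul _ _ (ε * ζ ^ 2) fun b hb => (hD a ha b ?_ ?_).trans h2).trans ?_
    · exact union_subset_union_right ((filter_subset _ _).trans hZ) hb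
    · rcases mem_union.1 hb with hb | hb
      · have := hD0 b hb
        omega
      · have := (mem_filter.1 hb).2
        omega
    · rw [nsmul_eq_mul, mul_comm]
      refine mul_le_mul_of_nonneg_left ?_ (by positivity)
      exact_mod_cast (card_union_le _ _).trans
        (Nat.add_le_add_left ((card_filter_le _ _).trans hc) _)
  · exact levD_of_le hε.le (union_subset_union_right (filter_subset _ _))
      (fun h' => (mem_union.1 h').elim (fun hb => disjoint_left.1 hd hb ha) haZ) (hl a ha haZ)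

/-- the mass of a row of small leverage on the columns is small -/
lemma Adm.lev_mass (h : Adm A w) {B : Finset ι} {ε ζ : ℝ} {a : ι} (hε : 0 ≤ ε) (hζ : ζ ^ 2 ≤ 1)
    (ha : LevD (Km A w) B ε ζ a) : ∑ b ∈ B, ‖Km A w a b‖ ^ 2 ≤ 2 * ε := by
  obtain ⟨m, hm⟩ : ∃ m, m = ∑ b ∈ B, ‖Km A w a b‖ ^ 2 := ⟨_, rfl⟩
  have h0 : 0 ≤ m := hm ▸ sum_nonneg fun _ _ => sq_nonneg _
  have h1 := ha (cut B (star (Km A w a))) fun i hi => by simp [cut, hi]
  have h2 : nsq (cut B (star (Km A w a))) = m := by rw [nsq_cut, hm]; simp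
  have h3 : (Km A w *ᵥ cut B (star (Km A w a))) a = (m : ℂ) := by
    rw [Lv.mulVec_cut, hm]
    simp [Complex.mul_conj']
  have h4 : ∑ x ∈ univ \ B, ‖(Km A w *ᵥ cut B (star (Km A w a))) x‖ ^ 2 ≤ m :=
    (sum_le_sum_of_subset_of_nonneg (subset_univ _) fun _ _ _ => sq_nonneg _).trans
      ((Lv.bd h _).trans_eq (by rw [h2, one_pow, one_mul]))
  rw [h2, h3, Complex.norm_real, Real.norm_of_nonneg h0] at h1
  rw [← hm]
  have h5 : ζ ^ 2 * m ≤ m := mul_le_of_le_one_left h0 hζ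
  have h6 : m * m ≤ 2 * ε * m := by nlinarith
  rcases h0.eq_or_lt with h7 | h7
  · rw [← h7]; positivity
  · exact le_of_mul_le_mul_right h6 h7

end Crest.Agent.N334.AC
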