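import Crest.Agent.N334.AC.L.Basic

/-! # S0520 part L: the linear system of the retuning step (leaf).
`N(X) = max_x γ_x⁻¹ ∑_{y∈O} |X x y| γ_y` is submultiplicative. `solve_early`:
`k x y = #{p : x,y ∈ tball p L}/vol L ∈ [1 - d·tdist/(L+1), 1]` (`overlap_ge`), `At = A ∘ k` is an average
of compressions (`norm_sum_local_le`: `‖At‖ ≤ b`), has range `≤ 2L`, `N(A - At) ≤ 2 d e'`,
`N(At^n) ≤ 2 √(vol (2nL)) b^n ≤ 1/4`, `N(A^n - At^n) ≤ n · 2de' · 2 ≤ 1/4`;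
`(1-A)⁻¹ = (1 + … + A^{n-1})(1 - A^n)⁻¹`. -/

set_option autoImplicit false

open Finset Complex
open scoped Matrix.Norms.L2Operator Matrix

namespace Crest.Agent.N334.AC

namespace Nw

variable {ι : Type} [Fintype ι] [DecidableEq ι] {γ : ι → ℝ}

/-- weighted row-sum bound -/
def NB (γ : ι → ℝ) (Y : Matrix ι ι ℂ) (c : ℝ) : Prop := ∀ x, ∑ y, ‖Y x y‖ * γ y ≤ c * γ x

omit [DecidableEq ι] in
lemma NB.mono (hγ : ∀ x, 0 < γ x) {Y : Matrix ι ι ℂ} {c c' : ℝ} (h : NB γ Y c) (hc : c ≤ c') :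
    NB γ Y c' := fun x => (h x).trans (mul_le_mul_of_nonneg_right hc (hγ x).le)

omit [DecidableEq ι] in
lemma NB.vec {Y : Matrix ι ι ℂ} {c b : ℝ} (h : NB γ Y c) (hb : 0 ≤ b) {v : ι → ℂ}
    (hv : ∀ x, ‖v x‖ ≤ b * γ x) (x : ι) : ‖(Y *ᵥ v) x‖ ≤ c * b * γ x := by
  calc ‖(Y *ᵥ v) x‖ ≤ ∑ y, ‖Y x y * v y‖ := norm_sum_le _ _
    _ ≤ ∑ y, b * (‖Y x y‖ * γ y) := sum_le_sum fun y _ => by
        rw [norm_mul]
        nlinarith [mul_le_mul_of_nonneg_left (hv y) (norm_nonneg (Y x y))]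
    _ ≤ c * b * γ x := by
        rw [← mul_sum]
        nlinarith [mul_le_mul_of_nonneg_left (h x) hb]

omit [DecidableEq ι] in
lemma NB.add (hγ : ∀ x, 0 < γ x) {Y Z : Matrix ι ι ℂ} {c c' : ℝ} (h : NB γ Y c) (h' : NB γ Z c') :
    NB γ (Y + Z) (c + c') := fun x => by
  calc ∑ y, ‖(Y + Z) x y‖ * γ y ≤ ∑ y, (‖Y x y‖ * γ y + ‖Z x y‖ * γ y) :=
        sum_le_sum fun y _ => by
          rw [← add_mul]
          exact mul_le_mul_of_nonneg_right (norm_add_le _ _) (hγ y).le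
    _ ≤ (c + c') * γ x := by rw [sum_add_distrib]; linarith [h x, h' x]

omit [DecidableEq ι] in
lemma NB.mul (hγ : ∀ x, 0 < γ x) {Y Z : Matrix ι ι ℂ} {c c' : ℝ} (h : NB γ Y c) (h' : NB γ Z c')
    (hc' : 0 ≤ c') : NB γ (Y * Z) (c * c') := fun x => by
  calc ∑ z, ‖(Y * Z) x z‖ * γ z ≤ ∑ z, ∑ y, ‖Y x y‖ * (‖Z y z‖ * γ z) :=
        sum_le_sum fun z _ => by
          rw [Matrix.mul_apply]
          refine (mul_le_mul_of_nonneg_right (norm_sum_le _ _) (hγ z).le).trans ?_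
          rw [sum_mul]
          exact le_of_eq (sum_congr rfl fun y _ => by rw [norm_mul, mul_assoc])
    _ = ∑ y, ‖Y x y‖ * ∑ z, ‖Z y z‖ * γ z := by
        rw [sum_comm]; exact sum_congr rfl fun y _ => (mul_sum _ _ _).symm
    _ ≤ ∑ y, c' * (‖Y x y‖ * γ y) := sum_le_sum fun y _ => by
        nlinarith [mul_le_mul_of_nonneg_left (h' y) (norm_nonneg (Y x y))]
    _ ≤ c * c' * γ x := by
        rw [← mul_sum]
        nlinarith [mul_le_mul_of_nonneg_left (h x) hc']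

lemma NB.one : NB γ (1 : Matrix ι ι ℂ) 1 := fun x => by
  rw [sum_eq_single x (fun y _ hy => by simp [Matrix.one_apply_ne hy.symm]) (by simp)]
  simp

omit [DecidableEq ι] in
lemma NB.zero : NB γ (0 : Matrix ι ι ℂ) 0 := fun x => by simp

lemma NB.pow (hγ : ∀ x, 0 < γ x) {Y : Matrix ι ι ℂ} {c : ℝ} (h : NB γ Y c) (hc : 0 ≤ c) (k : ℕ) :
    NB γ (Y ^ k) (c ^ k) := by
  induction k with
  | zero => simpa using NB.one
  | succ k ih => rw [pow_succ, pow_succ]; exact ih.mul hγ h hc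

lemma NB.geom (hγ : ∀ x, 0 < γ x) {Y : Matrix ι ι ℂ} {c : ℝ} (k : ℕ)
    (h : ∀ i < k, NB γ (Y ^ i) c) : NB γ (∑ i ∈ range k, Y ^ i) (k * c) := by
  induction k with
  | zero => simpa using NB.zero
  | succ k ih =>
    rw [sum_range_succ, Nat.cast_succ, add_mul, one_mul]
    exact (ih fun i hi => h i (by omega)).add hγ (h k (by omega))

lemma NB.pow_sub (hγ : ∀ x, 0 < γ x) {Y Z : Matrix ι ι ℂ} {a c : ℝ} (hY : NB γ Y a) (hZ : NB γ Z a)
    (h : NB γ (Y - Z) c) (ha : 1 ≤ a) (hc : 0 ≤ c) (k : ℕ) :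
    NB γ (Y ^ k - Z ^ k) (k * c * a ^ k) := by
  have ha0 : 0 ≤ a := by linarith
  induction k with
  | zero => simpa using NB.zero
  | succ k ih =>
    have e : Y ^ (k + 1) - Z ^ (k + 1) = Y * (Y ^ k - Z ^ k) + (Y - Z) * Z ^ k := by
      rw [pow_succ', pow_succ', mul_sub, sub_mul]; abel
    rw [e]
    refine ((hY.mul hγ ih (by positivity)).add hγ
      (h.mul hγ (hZ.pow hγ ha0 k) (by positivity))).mono hγ ?_
    have : c * a ^ k * 1 ≤ c * a ^ k * a := mul_le_mul_of_nonneg_left ha (by positivity)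
    rw [pow_succ, Nat.cast_succ]
    nlinarith

omit [DecidableEq ι] in
lemma apriori (hγ : ∀ x, 0 < γ x) {Y : Matrix ι ι ℂ} {q b : ℝ} (h : NB γ Y q) (hq : q < 1)
    {Δ β : ι → ℂ} (he : Δ - Y *ᵥ Δ = β) (hβ : ∀ x, ‖β x‖ ≤ b * γ x) (x : ι) :
    ‖Δ x‖ ≤ b / (1 - q) * γ x := by
  obtain ⟨x0, -, h0⟩ := exists_max_image univ (fun x => ‖Δ x‖ / γ x) ⟨x, mem_univ x⟩
  set m := ‖Δ x0‖ / γ x0 with hm
  have hm0 : 0 ≤ m := div_nonneg (norm_nonneg _) (hγ x0).le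
  have h1 : ∀ y, ‖Δ y‖ ≤ m * γ y := fun y => (div_le_iff₀ (hγ y)).1 (h0 y (mem_univ y))
  have h2 := h.vec hm0 h1 x0
  have h3 : Δ x0 = β x0 + (Y *ᵥ Δ) x0 := by rw [← he]; simp
  have h4 : ‖Δ x0‖ = m * γ x0 := by rw [hm, div_mul_cancel₀ _ (hγ x0).ne']
  have h5 := norm_add_le (β x0) ((Y *ᵥ Δ) x0)
  rw [← h3, h4] at h5
  have h6 : m * (1 - q) ≤ b := by
    refine le_of_mul_le_mul_right ?_ (hγ x0)
    linarith [hβ x0]
  exact (h1 x).trans (mul_le_mul_of_nonneg_right ((le_div_iff₀ (by linarith)).2 h6) (hγ x).le)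

lemma solve (hγ : ∀ x, 0 < γ x) {Y : Matrix ι ι ℂ} {q b : ℝ} (h : NB γ Y q) (hq : q < 1)
    {β : ι → ℂ} (hβ : ∀ x, ‖β x‖ ≤ b * γ x) :
    ∃ Δ : ι → ℂ, Δ - Y *ᵥ Δ = β ∧ ∀ x, ‖Δ x‖ ≤ b / (1 - q) * γ x := by
  have hi : Function.Injective (1 - Y).mulVec := by
    intro u v huv
    have e : (u - v) - Y *ᵥ (u - v) = 0 := by
      have : (1 - Y) *ᵥ (u - v) = 0 := by rw [Matrix.mulVec_sub]; exact sub_eq_zero.2 huv
      rwa [Matrix.sub_mulVec, Matrix.one_mulVec] at this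
    funext x
    have := apriori hγ h hq (b := 0) e (fun x => by simp) x
    simpa [sub_eq_zero] using this
  obtain ⟨Δ, hΔ⟩ := Matrix.mulVec_surjective_iff_isUnit.2
    (Matrix.mulVec_injective_iff_isUnit.1 hi) β
  rw [Matrix.sub_mulVec, Matrix.one_mulVec] at hΔ
  exact ⟨Δ, hΔ, apriori hγ h hq hΔ hβ⟩

/-- weights extended by `1` -/
def ext (O : Finset ι) (γ : ι → ℝ) : ι → ℝ := fun x => if x ∈ O then γ x else 1

omit [Fintype ι] in
lemma ext_pos {O : Finset ι} (hγ : ∀ x ∈ O, 0 < γ x) (x : ι) : 0 < ext O γ x := by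
  unfold ext; split_ifs with h
  exacts [hγ x h, one_pos]

lemma NB.of_supp {O : Finset ι} {Y : Matrix ι ι ℂ} {c : ℝ} (hc : 0 ≤ c)
    (hs : ∀ x y, Y x y ≠ 0 → x ∈ O ∧ y ∈ O)
    (h : ∀ x ∈ O, ∑ y ∈ O, ‖Y x y‖ * γ y ≤ c * γ x) : NB (ext O γ) Y c := fun x => by
  by_cases hx : x ∈ O
  · have e : ∑ y, ‖Y x y‖ * ext O γ y = ∑ y ∈ O, ‖Y x y‖ * γ y := by
      rw [← sum_subset (subset_univ O) fun y _ hy => by
        rw [not_not.1 fun hne => hy (hs x y hne).2]; simp]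
      exact sum_congr rfl fun y hy => by simp [ext, hy]
    rw [e]
    simpa [ext, hx] using h x hx
  · have e : ∑ y, ‖Y x y‖ * ext O γ y = 0 := sum_eq_zero fun y _ => by
      rw [not_not.1 fun hne => hx (hs x y hne).1]; simp
    rw [e]
    simpa [ext, hx] using hc

omit [Fintype ι] in
lemma cmp_supp (X : Matrix ι ι ℂ) (O : Finset ι) (x y : ι) (h : cmp X O x y ≠ 0) :
    x ∈ O ∧ y ∈ O := by
  by_contra hn
  exact h (if_neg hn)

/-- from the extended system to the system on `O` -/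
lemma finish {O : Finset ι} {X : Matrix ι ι ℂ} {β Δ : ι → ℂ} {c : ℝ}
    (he : Δ - cmp X O *ᵥ Δ = fun x => if x ∈ O then β x else 0)
    (hb : ∀ x, ‖Δ x‖ ≤ c * ext O γ x) :
    Supp Δ O ∧ ∀ x ∈ O, Δ x - ∑ y ∈ O, X x y * Δ y = β x ∧ ‖Δ x‖ ≤ c * γ x := by
  refine ⟨fun a ha => ?_, fun x hx => ⟨?_, by simpa [ext, hx] using hb x⟩⟩
  · have := congrFun he a
    simpa [ha, Matrix.mulVec, dotProduct, cmp] using this
  · have := congrFun he x
    simp only [Pi.sub_apply, if_pos hx] at this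
    rw [← this]
    congr 1
    rw [Matrix.mulVec, dotProduct, ← sum_subset (subset_univ O) fun y _ hy => by simp [cmp, hy]]
    exact sum_congr rfl fun y hy => by simp [cmp, hx, hy]

omit [Fintype ι] in
lemma rhs_le {O : Finset ι} {β : ι → ℂ} {b : ℝ} (hb : 0 ≤ b) (hβ : ∀ x ∈ O, ‖β x‖ ≤ b * γ x)
    (x : ι) : ‖(fun x => if x ∈ O then β x else 0) x‖ ≤ b * ext O γ x := by
  by_cases hx : x ∈ O
  · simpa [ext, hx] using hβ x hx
  · simpa [ext, hx] using hb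

section Tor

variable {d M : ℕ} [NeZero M]

/-- the overlap kernel -/
noncomputable def kk (L : ℕ) (x y : Tor d M) : ℝ :=
  ((univ.filter fun p => x ∈ tball p L ∧ y ∈ tball p L).card : ℝ) / vol d M L

lemma kk_nonneg (L : ℕ) (x y : Tor d M) : 0 ≤ kk L x y :=
  div_nonneg (Nat.cast_nonneg _) (by linarith [one_le_vol (d := d) (M := M) L])

lemma kk_le (L : ℕ) (x y : Tor d M) : kk L x y ≤ 1 := by
  rw [kk, div_le_one (by linarith [one_le_vol (d := d) (M := M) L]), ← card_filter_mem_tball x L]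
  exact_mod_cast card_le_card fun p hp => by
    simp only [mem_filter] at hp ⊢
    exact ⟨hp.1, hp.2.1⟩

lemma kk_ge (L : ℕ) (x y : Tor d M) : 1 - kk L x y ≤ d * (tdist x y : ℝ) / (L + 1) := by
  have h := overlap_ge x y L
  have : 1 - d * (tdist x y : ℝ) / (L + 1) ≤ kk L x y := by
    rw [kk, le_div_iff₀ (by linarith [one_le_vol (d := d) (M := M) L]), mul_comm]
    exact h
  linarith

lemma kk_range {L : ℕ} {x y : Tor d M} (h : kk L x y ≠ 0) : tdist x y ≤ 2 * L := by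
  have : (univ.filter fun p => x ∈ tball p L ∧ y ∈ tball p L).card ≠ 0 := fun h0 =>
    h (by rw [kk, h0]; simp)
  obtain ⟨p, hp⟩ := card_ne_zero.1 this
  simp only [mem_filter, mem_tball] at hp
  have := tdist_triangle x p y
  rw [tdist_comm p y] at this
  omega

/-- the truncated matrix -/
noncomputable def At (X : Matrix (Tor d M) (Tor d M) ℂ) (O : Finset (Tor d M)) (L : ℕ) :
    Matrix (Tor d M) (Tor d M) ℂ := fun x y => cmp X O x y * (kk L x y : ℝ)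

lemma At_eq (X : Matrix (Tor d M) (Tor d M) ℂ) (O : Finset (Tor d M)) (L : ℕ) :
    At X O L = (((vol d M L)⁻¹ : ℝ) : ℂ) • ∑ p, cmp X (O ∩ tball p L) := by
  ext x y
  have e : ∀ p, cmp X (O ∩ tball p L) x y =
      if x ∈ tball p L ∧ y ∈ tball p L then cmp X O x y else 0 := fun p => by
    simp only [cmp, mem_inter]
    by_cases h1 : x ∈ O <;> by_cases h2 : y ∈ O <;> simp [h1, h2]
  rw [Matrix.smul_apply, Matrix.sum_apply, sum_congr rfl fun p _ => e p, ← sum_filter, sum_const,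
    At, kk, nsmul_eq_mul, smul_eq_mul]
  push_cast
  ring

lemma norm_At {X : Matrix (Tor d M) (Tor d M) ℂ} {O : Finset (Tor d M)} {L : ℕ} {b2 : ℝ}
    (hb2 : 0 ≤ b2) (hblk : ∀ p, ‖cmp X (O ∩ tball p L)‖ ≤ b2) : ‖At X O L‖ ≤ b2 := by
  have hv : 0 < vol d M L := by linarith [one_le_vol (d := d) (M := M) L]
  have h := norm_sum_local_le univ (fun p => cmp X (O ∩ tball p L)) (fun p => O ∩ tball p L)
    (n := vol d M L) hb2 (fun p _ => ⟨?_, hblk p⟩) fun x => ?_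
  · rw [At_eq, norm_smul, norm_real, Real.norm_eq_abs, abs_of_pos (inv_pos.2 hv),
      inv_mul_le_iff₀ hv]
    exact h
  · ext a b
    simp only [cmp]
    split_ifs <;> rfl
  · rw [← card_filter_mem_tball x L]
    exact_mod_cast card_le_card fun p hp => by
      simp only [mem_filter, mem_inter] at hp ⊢
      exact ⟨hp.1, hp.2.2⟩

lemma At_supp {X : Matrix (Tor d M) (Tor d M) ℂ} {O : Finset (Tor d M)} {L : ℕ} {x y : Tor d M}
    (h : At X O L x y ≠ 0) : (x ∈ O ∧ y ∈ O) ∧ tdist x y ≤ 2 * L :=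
  ⟨cmp_supp X O x y (left_ne_zero_of_mul h),
    kk_range fun h0 => right_ne_zero_of_mul h (by rw [h0]; simp)⟩

lemma At_pow_range {X : Matrix (Tor d M) (Tor d M) ℂ} {O : Finset (Tor d M)} {L : ℕ} (k : ℕ) :
    ∀ x y : Tor d M, (At X O L ^ k) x y ≠ 0 → tdist x y ≤ 2 * k * L := by
  induction k with
  | zero =>
    intro x y h
    have : x = y := by
      by_contra hne
      exact h (by simp [Matrix.one_apply_ne hne])
    simp [this, tdist_self]
  | succ k ih =>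
    intro x y h
    rw [pow_succ, Matrix.mul_apply] at h
    obtain ⟨z, -, hz⟩ := exists_ne_zero_of_sum_ne_zero h
    have h1 := ih x z (left_ne_zero_of_mul hz)
    have h2 := (At_supp (right_ne_zero_of_mul hz)).2
    have h3 := tdist_triangle x z y
    nlinarith

lemma At_pow_supp {X : Matrix (Tor d M) (Tor d M) ℂ} {O : Finset (Tor d M)} {L : ℕ} (k : ℕ)
    (x y : Tor d M) (h : (At X O L ^ (k + 1)) x y ≠ 0) : x ∈ O ∧ y ∈ O := by
  constructor
  · rw [pow_succ', Matrix.mul_apply] at h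
    obtain ⟨z, -, hz⟩ := exists_ne_zero_of_sum_ne_zero h
    exact (At_supp (left_ne_zero_of_mul hz)).1.1
  · rw [pow_succ, Matrix.mul_apply] at h
    obtain ⟨z, -, hz⟩ := exists_ne_zero_of_sum_ne_zero h
    exact (At_supp (right_ne_zero_of_mul hz)).1.2

lemma row_le {Y : Matrix (Tor d M) (Tor d M) ℂ} {R : ℕ} {a : ℝ}
    (hR : ∀ x y, Y x y ≠ 0 → tdist x y ≤ R) (ha : ‖Y‖ ≤ a) (h : 64 * vol d M R * a ^ 2 ≤ 1)
    (x : Tor d M) : ∑ y, ‖Y x y‖ ≤ 1 / 8 := by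
  have e : ∑ y, ‖Y x y‖ = ∑ y ∈ tball x R, ‖Y x y‖ :=
    (sum_subset (subset_univ _) fun y _ hy => by
      have h0 : Y x y = 0 := by
        by_contra hne
        exact hy (mem_tball.2 (by rw [tdist_comm]; exact hR x y hne))
      simp [h0]).symm
  have h1 := sq_sum_le_card_mul_sum_sq (s := tball x R) (f := fun y => ‖Y x y‖)
  have h2 : ∑ y ∈ tball x R, ‖Y x y‖ ^ 2 ≤ a ^ 2 :=
    ((sum_le_sum_of_subset_of_nonneg (subset_univ _) fun _ _ _ => by positivity).trans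
      (row_sq_le Y x)).trans (pow_le_pow_left₀ (norm_nonneg _) ha 2)
  rw [card_tball] at h1
  have h3 := mul_le_mul_of_nonneg_left h2 (by linarith [one_le_vol (d := d) (M := M) R] :
    0 ≤ vol d M R)
  rw [e]
  exact (abs_le_of_sq_le_sq' (b := 1 / 8) (by nlinarith) (by norm_num)).2

end Tor

end Nw

open Nw in
theorem solve_late {ι : Type} [Fintype ι] [DecidableEq ι] {O : Finset ι} {X : Matrix ι ι ℂ}
    {γ : ι → ℝ} {q b : ℝ} {β : ι → ℂ} (hγ : ∀ x ∈ O, 0 < γ x) (hq : q < 1) (hb : 0 ≤ b)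
    (hX : ∀ x ∈ O, ∑ y ∈ O, ‖X x y‖ * γ y ≤ q * γ x) (hβ : ∀ x ∈ O, ‖β x‖ ≤ b * γ x) :
    ∃ Δ : ι → ℂ, Supp Δ O ∧ ∀ x ∈ O, Δ x - ∑ y ∈ O, X x y * Δ y = β x ∧
      ‖Δ x‖ ≤ b / (1 - q) * γ x := by
  rcases O.eq_empty_or_nonempty with rfl | ⟨x0, hx0⟩
  · exact ⟨0, fun _ _ => rfl, by simp⟩
  have hq0 : 0 ≤ q := by
    have h1 : 0 ≤ ∑ y ∈ O, ‖X x0 y‖ * γ y :=
      sum_nonneg fun y hy => mul_nonneg (norm_nonneg _) (hγ y hy).le
    exact nonneg_of_mul_nonneg_left (h1.trans (hX x0 hx0)) (hγ x0 hx0)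
  have hA : NB (ext O γ) (cmp X O) q := NB.of_supp hq0 (cmp_supp X O) fun x hx =>
    le_of_eq_of_le (sum_congr rfl fun y hy => by simp [cmp, hx, hy]) (hX x hx)
  obtain ⟨Δ, h1, h2⟩ := solve (ext_pos hγ) hA hq (rhs_le hb hβ)
  exact ⟨Δ, finish h1 h2⟩

open Nw in
theorem solve_early {d M : ℕ} [NeZero M] {O : Finset (Tor d M)} {X : Matrix (Tor d M) (Tor d M) ℂ}
    {γ : Tor d M → ℝ} {g e e' b2 b : ℝ} {L n : ℕ} {β : Tor d M → ℂ} (hg : 0 < g)
    (hγ : ∀ x ∈ O, g ≤ γ x ∧ γ x ≤ 2 * g) (he : 0 ≤ e) (he' : 0 ≤ e') (hb : 0 ≤ b) (hb2 : 0 ≤ b2)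
    (hn : 1 ≤ n) (hX : ∀ x ∈ O, ∑ y ∈ O, ‖X x y‖ * γ y ≤ (1 + e) * γ x)
    (hblk : ∀ p, ‖cmp X (O ∩ tball p L)‖ ≤ b2)
    (hdec : ∀ x ∈ O, ∑ y ∈ O, ‖X x y‖ * tdist x y ≤ e' * L)
    (h1 : n * e ≤ 1 / 2) (h2 : 16 * n * d * e' ≤ 1) (h3 : 64 * vol d M (2 * n * L) * b2 ^ (2 * n) ≤ 1)
    (hβ : ∀ x ∈ O, ‖β x‖ ≤ b * γ x) :
    ∃ Δ : Tor d M → ℂ, Supp Δ O ∧ ∀ x ∈ O, Δ x - ∑ y ∈ O, X x y * Δ y = β x ∧
      ‖Δ x‖ ≤ 4 * n * b * γ x := by
  have hγ0 : ∀ x ∈ O, 0 < γ x := fun x hx => hg.trans_le (hγ x hx).1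
  have hp := ext_pos hγ0
  have ha : (1 : ℝ) ≤ 1 + e := by linarith
  have hcm : ∀ x ∈ O, ∀ y ∈ O, cmp X O x y = X x y := fun x hx y hy => by simp [cmp, hx, hy]
  have hAt : ∀ x ∈ O, ∀ y ∈ O, ‖At X O L x y‖ = ‖X x y‖ * kk L x y := fun x hx y hy => by
    rw [At, hcm x hx y hy, norm_mul, norm_real, Real.norm_eq_abs, abs_of_nonneg (kk_nonneg L x y)]
  have hA : NB (ext O γ) (cmp X O) (1 + e) := NB.of_supp (by linarith) (cmp_supp X O) fun x hx =>
    le_of_eq_of_le (sum_congr rfl fun y hy => by rw [hcm x hx y hy]) (hX x hx)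
  have hB : NB (ext O γ) (At X O L) (1 + e) :=
    NB.of_supp (by linarith) (fun x y h => (At_supp h).1) fun x hx =>
      (sum_le_sum fun y hy => by
        rw [hAt x hx y hy]
        exact mul_le_mul_of_nonneg_right
          (mul_le_of_le_one_right (norm_nonneg _) (kk_le L x y)) (hγ0 y hy).le).trans (hX x hx)
  have hD : NB (ext O γ) (cmp X O - At X O L) (2 * d * e') := by
    refine NB.of_supp (by positivity) (fun x y h => cmp_supp X O x y fun h0 => h ?_)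
      fun x hx => ?_
    · simp [At, h0]
    have hL : (0 : ℝ) < L + 1 := by positivity
    calc ∑ y ∈ O, ‖(cmp X O - At X O L) x y‖ * γ y
        ≤ ∑ y ∈ O, d / (L + 1) * (2 * g) * (‖X x y‖ * tdist x y) := sum_le_sum fun y hy => by
          have e1 : (cmp X O - At X O L) x y = X x y * ((1 - kk L x y : ℝ) : ℂ) := by
            rw [Matrix.sub_apply, At, hcm x hx y hy]; push_cast; ring
          rw [e1, norm_mul, norm_real, Real.norm_eq_abs,
            abs_of_nonneg (sub_nonneg.2 (kk_le L x y))]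
          calc ‖X x y‖ * (1 - kk L x y) * γ y
              ≤ ‖X x y‖ * (d * (tdist x y : ℝ) / (L + 1)) * (2 * g) :=
                mul_le_mul (mul_le_mul_of_nonneg_left (kk_ge L x y) (norm_nonneg _))
                  (hγ y hy).2 (hγ0 y hy).le (by positivity)
            _ = _ := by ring
      _ ≤ d / (L + 1) * (2 * g) * (e' * (L + 1)) := by
          rw [← mul_sum]
          exact mul_le_mul_of_nonneg_left ((hdec x hx).trans (by nlinarith)) (by positivity)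
      _ = 2 * d * e' * g := by field_simp
      _ ≤ 2 * d * e' * γ x := mul_le_mul_of_nonneg_left (hγ x hx).1 (by positivity)
  have hpow : (1 + e) ^ n ≤ 2 := by
    have t1 : (1 + e) ^ n ≤ Real.exp e ^ n :=
      pow_le_pow_left₀ (by linarith) (by linarith [Real.add_one_le_exp e]) n
    rw [← Real.exp_nat_mul] at t1
    have t2 : Real.exp (n * e) ≤ Real.exp (1 / 2) := Real.exp_le_exp.2 h1
    have t3 := Real.add_one_le_exp (-(1 / 2))
    have t4 : Real.exp (1 / 2) * Real.exp (-(1 / 2)) = 1 := by rw [← Real.exp_add]; simp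
    nlinarith [Real.exp_pos (1 / 2)]
  have hE : NB (ext O γ) (cmp X O ^ n - At X O L ^ n) (1 / 4) := by
    refine (hA.pow_sub hp hB hD ha (by positivity) n).mono hp ?_
    have := mul_le_mul_of_nonneg_left hpow (by positivity : (0 : ℝ) ≤ n * (2 * d * e'))
    nlinarith
  have hF : NB (ext O γ) (At X O L ^ n) (1 / 4) := by
    obtain ⟨k, rfl⟩ : ∃ k, n = k + 1 := ⟨n - 1, by omega⟩
    refine NB.of_supp (by norm_num) (At_pow_supp k) fun x hx => ?_
    have r := row_le (a := b2 ^ (k + 1)) (At_pow_range (X := X) (O := O) (L := L) (k + 1))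
      ((norm_pow_le' _ (Nat.succ_pos k)).trans
        (pow_le_pow_left₀ (norm_nonneg _) (norm_At hb2 hblk) _))
      (by rw [← pow_mul, mul_comm (k + 1) 2]; exact h3) x
    calc ∑ y ∈ O, ‖(At X O L ^ (k + 1)) x y‖ * γ y
        ≤ ∑ y ∈ O, 2 * g * ‖(At X O L ^ (k + 1)) x y‖ := sum_le_sum fun y hy => by
          rw [mul_comm]; exact mul_le_mul_of_nonneg_right (hγ y hy).2 (norm_nonneg _)
      _ ≤ 2 * g * (1 / 8) := by
          rw [← mul_sum]
          exact mul_le_mul_of_nonneg_left ((sum_le_sum_of_subset_of_nonneg (subset_univ _)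
            fun _ _ _ => norm_nonneg _).trans r) (by positivity)
      _ ≤ 1 / 4 * γ x := by linarith [(hγ x hx).1]
  have hG : NB (ext O γ) (cmp X O ^ n) (1 / 4 + 1 / 4) := by
    have := hE.add hp hF
    rwa [sub_add_cancel] at this
  obtain ⟨Δ, e1, e2⟩ := solve hp hG (by norm_num) (rhs_le hb hβ)
  have hS : NB (ext O γ) (∑ i ∈ range n, cmp X O ^ i) (n * 2) := NB.geom hp n fun i hi =>
    (hA.pow hp (by linarith) i).mono hp ((pow_le_pow_right₀ ha hi.le).trans hpow)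
  refine ⟨(∑ i ∈ range n, cmp X O ^ i) *ᵥ Δ, finish ?_ fun x => ?_⟩
  · rw [← e1]
    have := congrArg (· *ᵥ Δ) (mul_neg_geom_sum (cmp X O) n)
    simp only [← Matrix.mulVec_mulVec, Matrix.sub_mulVec, Matrix.one_mulVec] at this
    exact this
  · refine (hS.vec (by positivity) e2 x).trans (le_of_eq ?_)
    ring

end Crest.Agent.N334.AC
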