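import Crest.Agent.N334.AC.L.Basic

/-! # S0520 part L: abstract row and mass bounds for a release (tools for `Rel.row`, `Rel.mass`) -/

set_option autoImplicit false

open Finset Complex
open scoped Matrix.Norms.L2Operator Matrix

namespace Crest.Agent.N334.AC.R2

variable {ι : Type} [Fintype ι] [DecidableEq ι]

/-- restriction of a vector -/
def rs (B : Finset ι) (x : ι → ℂ) : ι → ℂ := fun a => if a ∈ B then x a else 0
/-- the rows in `B` -/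
def rows (B : Finset ι) (X : Matrix ι ι ℂ) : Matrix ι ι ℂ := fun a b => if a ∈ B then X a b else 0

lemma rows_mulVec (B : Finset ι) (X : Matrix ι ι ℂ) (y : ι → ℂ) :
    rows B X *ᵥ y = rs B (X *ᵥ y) := by
  funext a
  by_cases h : a ∈ B <;> simp [rows, rs, Matrix.mulVec, dotProduct, h]
lemma nsq_rs (B : Finset ι) (x : ι → ℂ) : nsq (rs B x) = ∑ a ∈ B, ‖x a‖ ^ 2 := by
  rw [nsq, ← Finset.sum_subset (subset_univ B) fun a _ h => by simp [rs, h]]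
  exact Finset.sum_congr rfl fun a h => by simp [rs, h]
omit [DecidableEq ι] in
lemma sum_le_nsq (B : Finset ι) (x : ι → ℂ) : ∑ a ∈ B, ‖x a‖ ^ 2 ≤ nsq x :=
  Finset.sum_le_sum_of_subset_of_nonneg (subset_univ B) fun _ _ _ => by positivity
lemma nsq_rs_le (B : Finset ι) (x : ι → ℂ) : nsq (rs B x) ≤ nsq x :=
  (nsq_rs B x).trans_le (sum_le_nsq B x)
lemma rs_add (B : Finset ι) (x : ι → ℂ) : rs B x + rs Bᶜ x = x := by
  funext a
  by_cases h : a ∈ B <;> simp [rs, h]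
lemma sq_sub_le (x y : ℂ) : ‖-x - y‖ ^ 2 ≤ 2 * ‖x‖ ^ 2 + 2 * ‖y‖ ^ 2 := by
  have := norm_sub_le (-x) y
  rw [norm_neg] at this
  nlinarith [norm_nonneg (-x - y), norm_nonneg x, norm_nonneg y, sq_nonneg (‖x‖ - ‖y‖)]

/-- `D = -K Y` off `U`; near `B` only the rows `B` of `Y` matter up to `Kf` -/
structure Dat (K Kf Y D : Matrix ι ι ℂ) (B U N : Finset ι) (Λ δ : ℝ) : Prop where
  supp : ∀ x b, x ∉ U → Y x b = 0
  hY : ‖Y‖ ≤ Λ
  hD : ‖D‖ ≤ 2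
  hf : ‖Kf‖ * Λ ≤ δ
  eq : ∀ a, a ∉ U → ∀ b, D a b = -(K * Y) a b
  near : ∀ a ∈ N, ∀ x ∈ U, x ∉ B → K a x = Kf a x
  far : ∀ a, a ∉ N → ∀ x ∈ B, K a x = Kf a x
  dis : ∀ a ∈ N, a ∉ B → a ∉ U
  small : 3 * δ ^ 2 ≤ 1

variable {K Kf Y D : Matrix ι ι ℂ} {B U N : Finset ι} {Λ δ : ℝ} (h : Dat K Kf Y D B U N Λ δ)
include h

lemma Dat.nsq_Y (C : Finset ι) (y : ι → ℂ) : nsq (rs C (Y *ᵥ y)) ≤ Λ ^ 2 * nsq y := by
  have := nsq_nonneg y
  refine (nsq_rs_le _ _).trans ((nsq_mulVec_le Y y).trans ?_)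
  gcongr
  exact h.hY
lemma Dat.nsq_f (C : Finset ι) (y : ι → ℂ) : nsq (Kf *ᵥ rs C (Y *ᵥ y)) ≤ δ ^ 2 * nsq y := by
  have := nsq_nonneg y
  have h0 : 0 ≤ Λ := (norm_nonneg _).trans h.hY
  calc _ ≤ ‖Kf‖ ^ 2 * (Λ ^ 2 * nsq y) :=
        (nsq_mulVec_le _ _).trans (by gcongr; exact h.nsq_Y C y)
    _ = (‖Kf‖ * Λ) ^ 2 * nsq y := by ring
    _ ≤ _ := by gcongr; exact h.hf
lemma Dat.split (y : ι → ℂ) {a : ι} (ha : a ∈ N) (ha' : a ∉ B) :
    (D *ᵥ y) a = -(K *ᵥ rs B (Y *ᵥ y)) a - (Kf *ᵥ rs Bᶜ (Y *ᵥ y)) a := by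
  have h1 : (D *ᵥ y) a = -(K *ᵥ (Y *ᵥ y)) a := by
    rw [Matrix.mulVec_mulVec]
    simp [Matrix.mulVec, dotProduct, h.eq a (h.dis a ha ha')]
  have h2 : (K *ᵥ rs Bᶜ (Y *ᵥ y)) a = (Kf *ᵥ rs Bᶜ (Y *ᵥ y)) a := by
    refine Finset.sum_congr rfl fun x _ => ?_
    by_cases hx : x ∈ B
    · simp [rs, hx]
    by_cases hU : x ∈ U
    · exact congrArg (· * _) (h.near a ha x hU hx)
    · simp [rs, Matrix.mulVec, dotProduct, h.supp x _ hU]
  rw [h1, ← h2, ← neg_add', ← Pi.add_apply, ← Matrix.mulVec_add, rs_add]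
lemma Dat.main (y : ι → ℂ) : ∑ a ∈ univ \ B, ‖(K *ᵥ rs B (Y *ᵥ y)) a‖ ^ 2 ≤ 9 * nsq y := by
  have h0 := nsq_nonneg y
  have h1 : ∀ a ∈ univ \ B, ‖(K *ᵥ rs B (Y *ᵥ y)) a‖ ^ 2 ≤ 2 * ‖(D *ᵥ y) a‖ ^ 2 +
      2 * ‖(Kf *ᵥ rs Bᶜ (Y *ᵥ y)) a‖ ^ 2 + ‖(Kf *ᵥ rs B (Y *ᵥ y)) a‖ ^ 2 := fun a ha => by
    by_cases hN : a ∈ N
    · have e : (K *ᵥ rs B (Y *ᵥ y)) a = -(D *ᵥ y) a - (Kf *ᵥ rs Bᶜ (Y *ᵥ y)) a := by
        rw [h.split y hN (mem_sdiff.1 ha).2]; ring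
      rw [e]
      exact (sq_sub_le _ _).trans (le_add_of_nonneg_right (by positivity))
    · have e : (K *ᵥ rs B (Y *ᵥ y)) a = (Kf *ᵥ rs B (Y *ᵥ y)) a :=
        Finset.sum_congr rfl fun x _ => by
          by_cases hx : x ∈ B
          · exact congrArg (· * _) (h.far a hN x hx)
          · simp [rs, hx]
      rw [e]
      exact le_add_of_nonneg_left (by positivity)
  have h2 := Finset.sum_le_sum h1
  simp only [Finset.sum_add_distrib, ← Finset.mul_sum] at h2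
  have h3 := (sum_le_nsq (univ \ B) _).trans (h.nsq_f B y)
  have h4 := (sum_le_nsq (univ \ B) _).trans (h.nsq_f Bᶜ y)
  have h5 : nsq (D *ᵥ y) ≤ 2 ^ 2 * nsq y := (nsq_mulVec_le D y).trans (by gcongr; exact h.hD)
  have h6 := (sum_le_nsq (univ \ B) _).trans h5
  nlinarith [mul_le_mul_of_nonneg_right h.small h0]
lemma Dat.row {ε ζ : ℝ} (hε : 0 ≤ ε) (hζ : (ζ * Λ) ^ 2 ≤ 1) {a : ι} (ha : a ∈ N) (ha' : a ∉ B)
    (hl : LevD K B ε ζ a) : ∑ b, ‖D a b‖ ^ 2 ≤ 20 * ε + 2 * δ ^ 2 := by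
  refine nsq_le_of_dual (x := D a) (by positivity) fun y => ?_
  have h0 := nsq_nonneg y
  have h1 := hl (rs B (Y *ᵥ y)) fun x hx => if_neg hx
  have h2 : ζ ^ 2 * nsq (rs B (Y *ᵥ y)) ≤ nsq y :=
    calc _ ≤ ζ ^ 2 * (Λ ^ 2 * nsq y) := by gcongr; exact h.nsq_Y B y
      _ = (ζ * Λ) ^ 2 * nsq y := by ring
      _ ≤ _ := mul_le_of_le_one_left h0 hζ
  have h3 := (sq_le_nsq _ a).trans (h.nsq_f Bᶜ y)
  have h4 := mul_le_mul_of_nonneg_left (add_le_add (h.main y) h2) hε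
  rw [dotProduct_comm, show D a ⬝ᵥ y = (D *ᵥ y) a from rfl, h.split y ha ha']
  refine (sq_sub_le _ _).trans ?_
  nlinarith
lemma Dat.mass {S : Finset ι} (hS : ∀ a ∈ S, a ∈ N ∧ a ∉ B) :
    ∑ a ∈ S, ∑ b, ‖D a b‖ ^ 2 ≤ 18 * B.card + 2 * S.card * δ ^ 2 := by
  have hδ : 0 ≤ δ := (mul_nonneg (norm_nonneg _) ((norm_nonneg _).trans h.hY)).trans h.hf
  have h1 : ‖rows Bᶜ K * rows B Y‖ ≤ 3 := norm_le_of_nsq (by norm_num) fun y => by
    rw [← Matrix.mulVec_mulVec, rows_mulVec, rows_mulVec, nsq_rs, compl_eq_univ_sdiff]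
    exact (h.main y).trans_eq (by norm_num)
  have h2 : ‖Kf * rows Bᶜ Y‖ ≤ δ := norm_le_of_nsq hδ fun y => by
    rw [← Matrix.mulVec_mulVec, rows_mulVec]
    exact h.nsq_f _ y
  have h3 : ∀ a ∈ S, ∑ b, ‖D a b‖ ^ 2 ≤
      2 * ∑ b, ‖(rows Bᶜ K * rows B Y) a b‖ ^ 2 + 2 * δ ^ 2 := fun a ha => by
    have h4 : ∑ b, ‖(Kf * rows Bᶜ Y) a b‖ ^ 2 ≤ δ ^ 2 := (row_sq_le _ a).trans (by gcongr)
    have h5 : ∀ b, D a b = -(rows Bᶜ K * rows B Y) a b - (Kf * rows Bᶜ Y) a b := fun b => by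
      have := h.split (Pi.single b 1) (hS a ha).1 (hS a ha).2
      rw [← rows_mulVec, ← rows_mulVec, Matrix.mulVec_mulVec, Matrix.mulVec_mulVec,
        Matrix.mulVec_single_one, Matrix.mulVec_single_one, Matrix.mulVec_single_one] at this
      refine this.trans ?_
      simp [Matrix.mul_apply, rows, (hS a ha).2]
    calc _ ≤ ∑ b, (2 * ‖(rows Bᶜ K * rows B Y) a b‖ ^ 2 + 2 * ‖(Kf * rows Bᶜ Y) a b‖ ^ 2) :=
          Finset.sum_le_sum fun b _ => by rw [h5]; exact sq_sub_le _ _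
      _ ≤ _ := by rw [Finset.sum_add_distrib, ← Finset.mul_sum, ← Finset.mul_sum]; linarith
  have h6 : ∑ a ∈ S, ∑ b, ‖(rows Bᶜ K * rows B Y) a b‖ ^ 2 ≤ B.card * 3 ^ 2 :=
    calc _ ≤ ∑ a, ∑ b, ‖(rows Bᶜ K * rows B Y) a b‖ ^ 2 :=
          Finset.sum_le_sum_of_subset_of_nonneg (subset_univ S) fun _ _ _ => by positivity
      _ ≤ _ := (hs_le_card (Y := rows B Y) fun x b hx => if_neg hx).trans (by gcongr)
  have h7 := Finset.sum_le_sum h3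
  rw [Finset.sum_add_distrib, ← Finset.mul_sum, Finset.sum_const, nsmul_eq_mul] at h7
  linarith

omit h
/-- the change of `K` when the ports of `U` are closed -/
lemma exists_Y {A T : Matrix ι ι ℂ} {w : ι → ℂ} {v : ι → ℝ} {g t : ℝ} (hA : Adm A w)
    (hA' : Adm A (wCl w U v)) (hg : 0 < g) (hU : ∀ x ∈ U, g ≤ gam w x)
    (hG : Gm A (wCl w U v) = Gm A w - Gm A w * T * Gm A w) (hT : cmp T U = T) (ht : ‖T‖ ≤ t) :
    ∃ Y D : Matrix ι ι ℂ, (∀ x b, x ∉ U → Y x b = 0) ∧ ‖Y‖ ≤ t / g ∧ ‖D‖ ≤ 2 ∧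
      (∀ a, a ∉ U → ∀ b, D a b = -(Km A w * Y) a b) ∧
      ∀ a b, D a b = if b ∈ U then 0 else Km A (wCl w U v) a b - Km A w a b := by
  set S : Matrix ι ι ℂ := Matrix.diagonal fun x => (√(gam w x) : ℂ) with hS
  set Q : Matrix ι ι ℂ := Matrix.diagonal fun x => if x ∈ U then ((√(gam w x) : ℂ))⁻¹ else 0 with hQ
  set P : Matrix ι ι ℂ := Matrix.diagonal fun x => if x ∈ U then (0 : ℂ) else 1 with hP
  have hK : Km A w = S * Gm A w * S := by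
    ext a b; simp [hS, Km]
  have hne : ∀ x ∈ U, (√(gam w x) : ℂ) ≠ 0 := fun x hx =>
    ofReal_ne_zero.2 (Real.sqrt_ne_zero'.2 (hg.trans_le (hU x hx)))
  have hST : S * (Q * T * Q) * S = T := by
    ext a b
    conv_rhs => rw [← hT]
    simp only [hS, hQ, Matrix.mul_diagonal, Matrix.diagonal_mul, cmp]
    by_cases ha : a ∈ U <;> by_cases hb : b ∈ U <;> simp [ha, hb]
    field_simp [hne a ha, hne b hb]
  have nP : ‖P‖ ≤ 1 := norm_diagonal_le zero_le_one fun x => by split_ifs <;> simp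
  have nQ : ‖Q‖ ≤ (√g)⁻¹ := norm_diagonal_le (by positivity) fun x => by
    split_ifs with hx
    · rw [norm_inv, norm_real, Real.norm_of_nonneg (Real.sqrt_nonneg _)]
      gcongr
      exact hU x hx
    · rw [norm_zero]; positivity
  have hD : ∀ a b, ((Km A (wCl w U v) - Km A w) * P) a b =
      if b ∈ U then 0 else Km A (wCl w U v) a b - Km A w a b := fun a b => by
    simp [hP]
  refine ⟨Q * T * Q * Km A w * P, (Km A (wCl w U v) - Km A w) * P, fun x b hx => ?_, ?_, ?_,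
    fun a ha b => ?_, hD⟩
  · simp [hQ, Matrix.mul_assoc, hx]
  · have ht0 : 0 ≤ t := (norm_nonneg _).trans ht
    calc _ ≤ ‖Q‖ * ‖T‖ * ‖Q‖ * ‖Km A w‖ * ‖P‖ := by
          refine (norm_mul_le _ _).trans ?_
          gcongr
          refine (norm_mul_le _ _).trans ?_
          gcongr
          refine (norm_mul_le _ _).trans ?_
          gcongr
          exact norm_mul_le _ _
      _ ≤ (√g)⁻¹ * t * (√g)⁻¹ * 1 * 1 := by gcongr; exact hA.norm_K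
      _ = t / (√g * √g) := by field_simp
      _ = _ := by rw [Real.mul_self_sqrt hg.le]
  · calc _ ≤ (‖Km A (wCl w U v)‖ + ‖Km A w‖) * ‖P‖ :=
          (norm_mul_le _ _).trans (by gcongr; exact norm_sub_le _ _)
      _ ≤ (1 + 1) * 1 := by gcongr; exacts [hA'.norm_K, hA.norm_K]
      _ = _ := by norm_num
  · have e : Km A w * (Q * T * Q * Km A w * P) = S * (Gm A w * T * Gm A w) * S * P := by
      conv_rhs => rw [← hST]
      rw [hK]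
      simp only [Matrix.mul_assoc]
    rw [hD, e]
    by_cases hb : b ∈ U
    · simp [hP, hb]
    · simp only [hP, hS, Matrix.mul_diagonal, Matrix.diagonal_mul, if_neg hb, Km, hG, gam, wCl,
        if_neg ha, Matrix.sub_apply]
      ring

end Crest.Agent.N334.AC.R2
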