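import Crest.Agent.N334.AC.L.Rel1
import Crest.Agent.N334.AC.L.Rel2

/-! # S0520 part L: simultaneous closing of far clusters (leaves Rel1 = `Rel.exists_T`, `Rel.ref`, `Rel.far`;
Rel2 = `Rel.row`, `Rel.mass`).
`U = diag (v - w)` on `B'' = ⋃ B c`, `T_c = U - U G_c U` on `B c` (`‖T_c‖ ≤ 3/η`, `T_c (1 + G U)… `: check
`T_c = U (1 + G_{cc} U)⁻¹`), `T_d = ∑ T_c`, `E` = off-block part of `G` on `B''`, `T = (1 + T_d E)⁻¹ T_d`,
`G' = G - G T G`. Twisted bounds at rate `θ'`: `T_d ≤ K1`, `E ≤ Ag S e^{-θR}` (`TW.of_entry`), `T ≤ 2K1`,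
`T - T_d = -T_d E T`. Rel2: off `B''`, `K' - K = -K Y` with `Y = γ^{-1/2} T γ^{-1/2} K`, `‖Y‖ ≤ 6/(η g)`,
`‖K'-K‖ ≤ 2`; for a row in `nbhd (B c) R` only the rows `B c` of `Y` matter, `‖K_{·,B c} Y_c‖ ≤ 3` on the rows outside
`B c`; apply `LevD` to every column of `Y_c` after testing the row against a unit vector; `hs_le_card` for the mass. -/

set_option autoImplicit false

open Finset Complex
open scoped Matrix.Norms.L2Operator Matrix

namespace Crest.Agent.N334.AC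

variable {d M : ℕ} [NeZero M]

variable {A : Matrix (Tor d M) (Tor d M) ℂ} {w : Tor d M → ℂ} {O Cs : Finset (Tor d M)}
  {B : Tor d M → Finset (Tor d M)} {v : Tor d M → ℝ} {θ θ' Ag η g K1 tn : ℝ} {Dm R : ℕ}

namespace R2

lemma K_entry (h : Rel A w O Cs B v θ θ' Ag η g K1 tn Dm R) (a b : Tor d M) :
    ‖Km A w a b‖ ≤ Ag * Real.exp (-θ * tdist a b) := by
  have hA : 0 ≤ Ag := zero_le_one.trans h.Ag1
  by_cases ha : gam w a = 0
  · simp only [Km, ha, Real.sqrt_zero, ofReal_zero, zero_mul, norm_zero]; positivity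
  by_cases hb : gam w b = 0
  · simp only [Km, hb, Real.sqrt_zero, ofReal_zero, mul_zero, norm_zero]; positivity
  have h1 := h.tw.entry a b
  rw [cmp, if_pos ⟨h.ports a ha, h.ports b hb⟩] at h1
  have h2 : ∀ x, ‖(√(gam w x) : ℂ)‖ ≤ 1 := fun x => by
    rw [norm_real, Real.norm_of_nonneg (Real.sqrt_nonneg _)]
    exact Real.sqrt_le_one.2 (h.gam_le x)
  calc _ ≤ 1 * ‖Gm A w a b‖ * 1 := by
        rw [Km, norm_mul, norm_mul]
        gcongr
        exacts [h2 a, h2 b]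
    _ ≤ _ := by rwa [one_mul, mul_one]

/-- the far part of `K` -/
noncomputable def Kf (K : Matrix (Tor d M) (Tor d M) ℂ) (R : ℕ) : Matrix (Tor d M) (Tor d M) ℂ :=
  fun a b => if 2 * R < tdist a b then K a b else 0

lemma norm_Kf (h : Rel A w O Cs B v θ θ' Ag η g K1 tn Dm R) :
    ‖Kf (Km A w) R‖ ≤ Ag * (Real.exp (-θ * R) * (6 * d / θ) ^ d) := by
  have hA : 0 ≤ Ag := zero_le_one.trans h.Ag1
  have hθ : 0 < θ := by linarith [h.θ0, h.θ1]
  have key : ∀ (p : Tor d M) (f : Tor d M → ℂ), (∀ x, ‖f x‖ ≤ Ag * Real.exp (-θ * tdist x p)) →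
      ∑ x, ‖if 2 * R < tdist x p then f x else 0‖ ≤
        Ag * (Real.exp (-θ * R) * (6 * d / θ) ^ d) := fun p f hf => by
    have h1 := sum_exp_tail_le hθ h.θ2 p (2 * R)
    rw [show -θ * ((2 * R : ℕ) : ℝ) / 2 = -θ * R by push_cast; ring, Finset.sum_filter] at h1
    refine le_trans ?_ (mul_le_mul_of_nonneg_left h1 hA)
    rw [Finset.mul_sum]
    refine Finset.sum_le_sum fun x _ => ?_
    split_ifs
    · exact hf x
    · simp
  refine norm_le_schur (by positivity) (fun a => ?_) fun b => key b _ fun x => K_entry h x b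
  simpa only [Kf, tdist_comm a] using key a (Km A w a) fun x => tdist_comm a x ▸ K_entry h a x

lemma delta_le (h : Rel A w O Cs B v θ θ' Ag η g K1 tn Dm R) :
    10 * (vol d M (Dm + R) * (Ag * (Real.exp (-θ * R) * (6 * d / θ) ^ d) * (6 / η / g)) ^ 2) ≤
      tn := by
  have hA := h.Ag1
  have hθ : 0 < θ := by linarith [h.θ0, h.θ1]
  have hη := h.η0
  have hg := h.g0
  have hv := one_le_vol (d := d) (M := M) (Dm + R)
  have h1 : 3 / η ≤ K1 := le_trans (le_mul_of_one_le_left (by positivity)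
    (Real.one_le_exp (by have := h.θ0; positivity))) h.hK1
  have h2 : Real.exp (-θ * R) ^ 2 ≤ Real.exp (-θ * R / 2) := by
    rw [← Real.exp_nat_mul]
    refine Real.exp_le_exp.2 ?_
    have : 0 ≤ θ * R := by positivity
    push_cast
    linarith
  have h3 : Ag ^ 2 ≤ Ag ^ 3 := pow_le_pow_right₀ hA (by norm_num)
  have h4 : (6 * d / θ : ℝ) ≤ 12 * d / θ := by gcongr; norm_num
  refine le_trans ?_ h.htn
  calc _ = 40 * vol d M (Dm + R) * Ag ^ 2 * (3 / η) ^ 2 * (6 * d / θ) ^ (2 * d) / g ^ 2 *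
        Real.exp (-θ * R) ^ 2 := by rw [pow_mul']; field_simp; ring
    _ ≤ _ := by gcongr

lemma exists_dat (h : Rel A w O Cs B v θ θ' Ag η g K1 tn Dm R) {c : Tor d M} (hc : c ∈ Cs) :
    ∃ Y D δ, Dat (Km A w) (Kf (Km A w) R) Y D (B c) (Cs.biUnion B) (nbhd (B c) (2 * R))
      (6 / η / g) δ ∧ 10 * (vol d M (Dm + R) * δ ^ 2) ≤ tn ∧ ∀ a, ∑ b ∈ univ \ Cs.biUnion B,
        ‖Km A (wCl w (Cs.biUnion B) v) a b - Km A w a b‖ ^ 2 = ∑ b, ‖D a b‖ ^ 2 := by
  obtain ⟨hA', T, -, hG, hT, ht, -⟩ := h.exists_T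
  obtain ⟨Y, D, h1, h2, h3, h4, h5⟩ := exists_Y h.adm hA' h.g0 (fun x hx => by
    obtain ⟨c, hc, hx⟩ := mem_biUnion.1 hx
    exact h.gam_ge c hc x hx) hG hT ht
  have hδ := delta_le h
  have hv := one_le_vol (d := d) (M := M) (Dm + R)
  have iso : ∀ a ∈ nbhd (B c) (2 * R), ∀ x ∈ Cs.biUnion B, x ∉ B c → 2 * R < tdist a x := by
    intro a ha x hx hx'
    obtain ⟨c', hc', hx⟩ := mem_biUnion.1 hx
    obtain ⟨b, hb, hab⟩ := (mem_filter.1 ha).2
    have h6 := h.iso c hc c' hc' (fun e => hx' (e ▸ hx)) b hb x hx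
    have h7 := tdist_triangle b a x
    rw [tdist_comm b a] at h7
    omega
  refine ⟨Y, D, _, ⟨h1, h2, h3, mul_le_mul_of_nonneg_right (norm_Kf h)
    (by have := h.η0; have := h.g0; positivity), h4, fun a ha x hx hx' =>
      (if_pos (iso a ha x hx hx')).symm, fun a ha x hx => (if_pos ?_).symm, fun a ha ha' hU => ?_,
      ?_⟩, hδ, fun a => ?_⟩
  · exact not_le.1 fun e => ha (mem_filter.2 ⟨mem_univ _, x, hx, e⟩)
  · have := iso a ha a hU ha'
    rw [tdist_self] at this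
    omega
  · nlinarith [h.tn1, sq_nonneg (Ag * (Real.exp (-θ * R) * (6 * d / θ) ^ d) * (6 / η / g))]
  · rw [← Finset.sum_subset (subset_univ (univ \ Cs.biUnion B)) fun b _ hb => by
      rw [h5, if_pos (by simpa using hb), norm_zero, zero_pow two_ne_zero]]
    exact Finset.sum_congr rfl fun b hb => by rw [h5, if_neg (mem_sdiff.1 hb).2]

lemma nbhd_mono (C : Finset (Tor d M)) (R : ℕ) : nbhd C R ⊆ nbhd C (2 * R) := fun a ha => by
  obtain ⟨b, hb, hab⟩ := (mem_filter.1 ha).2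
  exact mem_filter.2 ⟨mem_univ _, b, hb, by omega⟩

end R2
open R2

theorem Rel.row (h : Rel A w O Cs B v θ θ' Ag η g K1 tn Dm R) {ε ζ : ℝ} (hε : tn ≤ ε)
    (hζ : 0 ≤ ζ) (hζ1 : 6 * ζ ≤ η * g) {c a : Tor d M} (hc : c ∈ Cs) (ha : a ∈ nbhd (B c) R)
    (ha' : a ∉ B c) (hl : LevD (Km A w) (B c) ε ζ a) :
    ∑ b ∈ univ \ Cs.biUnion B, ‖Km A (wCl w (Cs.biUnion B) v) a b - Km A w a b‖ ^ 2 ≤ 24 * ε := by
  obtain ⟨Y, D, δ, hD, hδ, e⟩ := exists_dat h hc
  have hv := one_le_vol (d := d) (M := M) (Dm + R)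
  have hη := h.η0
  have hg := h.g0
  have h1 : 10 * δ ^ 2 ≤ ε := by nlinarith [sq_nonneg δ]
  have h2 : ζ * (6 / η / g) ≤ 1 := by
    rw [div_div, mul_div_assoc', div_le_one (by positivity)]
    linarith
  have := hD.row (by nlinarith [sq_nonneg δ]) (pow_le_one₀ (by positivity) h2)
    (nbhd_mono _ _ ha) ha' hl
  rw [e]
  nlinarith [sq_nonneg δ]

theorem Rel.mass (h : Rel A w O Cs B v θ θ' Ag η g K1 tn Dm R) {c : Tor d M} (hc : c ∈ Cs) :
    ∑ a ∈ nbhd (B c) R \ B c, ∑ b ∈ univ \ Cs.biUnion B,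
      ‖Km A (wCl w (Cs.biUnion B) v) a b - Km A w a b‖ ^ 2 ≤ 18 * (B c).card + 1 := by
  obtain ⟨Y, D, δ, hD, hδ, e⟩ := exists_dat h hc
  have h1 := hD.mass (S := nbhd (B c) R \ B c) fun a ha =>
    ⟨nbhd_mono _ _ (mem_sdiff.1 ha).1, (mem_sdiff.1 ha).2⟩
  have h2 : ((nbhd (B c) R \ B c).card : ℝ) ≤ vol d M (Dm + R) := by
    rw [← card_tball c]
    refine Nat.cast_le.2 (card_le_card fun a ha => ?_)
    obtain ⟨b, hb, hab⟩ := (mem_filter.1 (mem_sdiff.1 ha).1).2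
    have h3 := mem_tball.1 (h.diam c hc hb)
    have h4 := tdist_triangle a b c
    exact mem_tball.2 (by omega)
  simp only [e]
  nlinarith [mul_le_mul_of_nonneg_right h2 (sq_nonneg δ), h.tn1]

end Crest.Agent.N334.AC
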