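import Crest.Agent.N334.AC.L.CT
import Crest.Agent.N334.AC.L.Lev

/-! # S0520 part L: simultaneous closing of far clusters (leaves Rel1 = `Rel.exists_T`, `Rel.ref`, `Rel.far`;
Rel2 = `Rel.row`, `Rel.mass`).
`U = diag (v - w)` on `B'' = ⋃ B c`, `T_c = U - U G_c U` on `B c` (`‖T_c‖ ≤ 3/η`, `T_c (1 + G U)… `: check
`T_c = U (1 + G_{cc} U)⁻¹`), `T_d = ∑ T_c`, `E` = off-block part of `G` on `B''`, `T = (1 + T_d E)⁻¹ T_d`,
`G' = G - G T G`. Twisted bounds at rate `θ'`: `T_d ≤ K1`, `E ≤ Ag S e^{-θR}` (`TW.of_entry`), `T ≤ 2K1`,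
`T - T_d = -T_d E T`. Rel2: off `B''`, `K' - K = -K Y` with `Y = γ^{-1/2} T γ^{-1/2} K`, `‖Y‖ ≤ 6/(η g)`,
`‖K'-K‖ ≤ 2`; for a row in `nbhd (B c) R` only the rows `B c` of `Y` matter, `‖K_{·,B c} Y_c‖ ≤ 3` on the rows outside
`B c`; apply `LevD` to every column of `Y_c` after testing the row against a unit vector; `hs_le_card` for the mass. -/

set_option autoImplicit false

open Finset Complex
open scoped Matrix.Norms.L2Operator Matrix

namespace Crest.Agent.N334.AC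

variable {d M : ℕ} [NeZero M]

/-- data of a release -/
structure Rel (A : Matrix (Tor d M) (Tor d M) ℂ) (w : Tor d M → ℂ) (O Cs : Finset (Tor d M))
    (B : Tor d M → Finset (Tor d M)) (v : Tor d M → ℝ) (θ θ' Ag η g K1 tn : ℝ) (Dm R : ℕ) : Prop where
  adm : Adm A w
  hd : 1 ≤ d
  ports : ∀ x, gam w x ≠ 0 → x ∈ O
  gam_le : ∀ x, gam w x ≤ 1
  tw : TW θ Ag (cmp (Gm A w) O)
  θ0 : 0 < θ'
  θ1 : 4 * θ' ≤ θ
  θ2 : θ ≤ 1
  Ag1 : 1 ≤ Ag
  η0 : 0 < η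
  η1 : η ≤ 1
  g0 : 0 < g
  g1 : g ≤ 1
  gam_ge : ∀ c ∈ Cs, ∀ x ∈ B c, g ≤ gam w x
  diam : ∀ c ∈ Cs, B c ⊆ tball c Dm
  iso : ∀ c ∈ Cs, ∀ c' ∈ Cs, c ≠ c' → ∀ x ∈ B c, ∀ x' ∈ B c', 4 * R < tdist x x'
  u_le : ∀ c ∈ Cs, ∀ x ∈ B c, ‖(v x : ℂ) - w x‖ ≤ 1
  good : ∀ c ∈ Cs, Adm A (wCl w (B c) v) ∧ ‖cmp (Gm A (wCl w (B c) v)) (B c)‖ ≤ 2 / η
  hK1 : Real.exp (2 * θ' * Dm) * (3 / η) ≤ K1
  htn : 40 * vol d M (Dm + R) * Ag ^ 3 * K1 ^ 2 * (12 * d / θ) ^ (2 * d) / g ^ 2 *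
    Real.exp (-θ * R / 2) ≤ tn
  tn1 : tn ≤ 1 / 4

variable {A : Matrix (Tor d M) (Tor d M) ℂ} {w : Tor d M → ℂ} {O Cs : Finset (Tor d M)}
  {B : Tor d M → Finset (Tor d M)} {v : Tor d M → ℝ} {θ θ' Ag η g K1 tn : ℝ} {Dm R : ℕ}

namespace Rel1

section Gen

variable {ι : Type} [Fintype ι] [DecidableEq ι]

/-- coordinate projection -/
def pr (Q : Finset ι) : Matrix ι ι ℂ := Matrix.diagonal fun x => if x ∈ Q then 1 else 0

lemma cmp_eq (X : Matrix ι ι ℂ) (Q : Finset ι) : cmp X Q = pr Q * X * pr Q := by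
  ext a b
  simp only [cmp, pr, Matrix.mul_diagonal, Matrix.diagonal_mul]
  by_cases ha : a ∈ Q <;> by_cases hb : b ∈ Q <;> simp [ha, hb]

lemma pr_mul_apply (Q : Finset ι) (X : Matrix ι ι ℂ) (a b : ι) :
    (pr Q * X) a b = if a ∈ Q then X a b else 0 := by
  simp only [pr, Matrix.diagonal_mul]
  split_ifs <;> simp

omit [DecidableEq ι] in
lemma triple_congr {X X' T Y Y' : Matrix ι ι ℂ} {a b : ι}
    (h : ∀ x y, T x y ≠ 0 → X a x = X' a x ∧ Y y b = Y' y b) :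
    (X * T * Y) a b = (X' * T * Y') a b := by
  simp only [Matrix.mul_apply, sum_mul]
  refine sum_congr rfl fun y _ => sum_congr rfl fun x _ => ?_
  by_cases h0 : T x y = 0
  · simp [h0]
  · rw [(h x y h0).1, (h x y h0).2]

omit [DecidableEq ι] in
lemma wt_mul (θ : ℝ) (φ : ι → ℝ) (X Y : Matrix ι ι ℂ) : wt θ φ (X * Y) = wt θ φ X * wt θ φ Y := by
  ext a b
  simp only [wt, Matrix.mul_apply, mul_sum]
  refine sum_congr rfl fun x _ => ?_
  have : Real.exp (θ * (φ a - φ b)) = Real.exp (θ * (φ a - φ x)) * Real.exp (θ * (φ x - φ b)) := by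
    rw [← Real.exp_add]; congr 1; ring
  rw [this]; push_cast; ring

omit [Fintype ι] [DecidableEq ι] in
lemma wt_sub (θ : ℝ) (φ : ι → ℝ) (X Y : Matrix ι ι ℂ) : wt θ φ (X - Y) = wt θ φ X - wt θ φ Y := by
  ext a b
  simp only [wt, Matrix.sub_apply, mul_sub]

omit [Fintype ι] [DecidableEq ι] in
lemma wt_neg (θ : ℝ) (φ : ι → ℝ) (X : Matrix ι ι ℂ) : wt θ φ (-X) = -wt θ φ X := by
  ext a b
  simp only [wt, Matrix.neg_apply, mul_neg]

omit [Fintype ι] [DecidableEq ι] in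
lemma wt_sum {κ : Type} (θ : ℝ) (φ : ι → ℝ) (s : Finset κ) (X : κ → Matrix ι ι ℂ) :
    wt θ φ (∑ c ∈ s, X c) = ∑ c ∈ s, wt θ φ (X c) := by
  ext a b
  simp only [wt, Matrix.sum_apply, mul_sum]

omit [Fintype ι] in
lemma cmp_wt (θ : ℝ) (φ : ι → ℝ) {X : Matrix ι ι ℂ} {Q : Finset ι} (h : cmp X Q = X) :
    cmp (wt θ φ X) Q = wt θ φ X := by
  ext a b
  have := congrFun (congrFun h a) b
  simp only [cmp, wt] at this ⊢
  split_ifs with h1
  · rfl
  · rw [if_neg h1] at this; rw [← this, mul_zero]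

omit [Fintype ι] in
lemma mem_of_ne {X : Matrix ι ι ℂ} {Q : Finset ι} (h : cmp X Q = X) {a b : ι} (h0 : X a b ≠ 0) :
    a ∈ Q ∧ b ∈ Q := by
  by_contra h1
  have := congrFun (congrFun h a) b
  simp only [cmp, if_neg h1] at this
  exact h0 this.symm

omit [Fintype ι] in
lemma cmp_of_mem {X : Matrix ι ι ℂ} {Q : Finset ι} (h : ∀ a b, X a b ≠ 0 → a ∈ Q ∧ b ∈ Q) :
    cmp X Q = X := by
  ext a b
  simp only [cmp]
  split_ifs with h1
  · rfl
  · by_contra h2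
    exact h1 (h a b (Ne.symm h2))

/-- twisting a localized matrix -/
lemma norm_wt_le {θ : ℝ} (hθ : 0 ≤ θ) {φ : ι → ℝ} {X : Matrix ι ι ℂ} {Q : Finset ι}
    (h : cmp X Q = X) {c D : ℝ} (hD : ∀ x ∈ Q, |φ x - c| ≤ D) :
    ‖wt θ φ X‖ ≤ Real.exp (2 * θ * D) * ‖X‖ := by
  have e : wt θ φ X =
      Matrix.diagonal (fun x => if x ∈ Q then (Real.exp (θ * (φ x - c)) : ℂ) else 0) * X *
        Matrix.diagonal (fun x => if x ∈ Q then (Real.exp (θ * (c - φ x)) : ℂ) else 0) := by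
    ext a b
    simp only [wt, Matrix.mul_diagonal, Matrix.diagonal_mul]
    by_cases h0 : X a b = 0
    · simp [h0]
    · obtain ⟨ha, hb⟩ := mem_of_ne h h0
      have : Real.exp (θ * (φ a - φ b)) = Real.exp (θ * (φ a - c)) * Real.exp (θ * (c - φ b)) := by
        rw [← Real.exp_add]; congr 1; ring
      rw [if_pos ha, if_pos hb, this]; push_cast; ring
  have h1 : ‖Matrix.diagonal (fun x => if x ∈ Q then (Real.exp (θ * (φ x - c)) : ℂ) else 0)‖ ≤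
      Real.exp (θ * D) := by
    refine norm_diagonal_le (Real.exp_pos _).le fun x => ?_
    split_ifs with hx
    · rw [Complex.norm_real, Real.norm_of_nonneg (Real.exp_pos _).le, Real.exp_le_exp]
      exact mul_le_mul_of_nonneg_left (abs_le.1 (hD x hx)).2 hθ
    · simpa using (Real.exp_pos _).le
  have h2 : ‖Matrix.diagonal (fun x => if x ∈ Q then (Real.exp (θ * (c - φ x)) : ℂ) else 0)‖ ≤
      Real.exp (θ * D) := by
    refine norm_diagonal_le (Real.exp_pos _).le fun x => ?_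
    split_ifs with hx
    · rw [Complex.norm_real, Real.norm_of_nonneg (Real.exp_pos _).le, Real.exp_le_exp]
      exact mul_le_mul_of_nonneg_left (by linarith [(abs_le.1 (hD x hx)).1]) hθ
    · simpa using (Real.exp_pos _).le
  have h3 : Real.exp (2 * θ * D) = Real.exp (θ * D) * Real.exp (θ * D) := by
    rw [← Real.exp_add]; congr 1; ring
  rw [e, h3]
  calc _ ≤ Real.exp (θ * D) * ‖X‖ * Real.exp (θ * D) :=
        (norm_mul_le _ _).trans (mul_le_mul ((norm_mul_le _ _).trans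
          (mul_le_mul_of_nonneg_right h1 (norm_nonneg _))) h2 (norm_nonneg _) (by positivity))
    _ = _ := by ring

/-- the closing perturbation -/
noncomputable def Uc (w : ι → ℂ) (Q : Finset ι) (v : ι → ℝ) : Matrix ι ι ℂ :=
  Matrix.diagonal (wCl w Q v - w)

/-- the `T`-matrix of one cluster -/
noncomputable def Tc (A : Matrix ι ι ℂ) (w : ι → ℂ) (Q : Finset ι) (v : ι → ℝ) : Matrix ι ι ℂ :=
  Uc w Q v - Uc w Q v * Gm A (wCl w Q v) * Uc w Q v

variable {A : Matrix ι ι ℂ} {w : ι → ℂ} {Q Q' : Finset ι} {v : ι → ℝ}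

lemma Uc_pr (h : Q ⊆ Q') : Uc w Q' v * pr Q = Uc w Q v := by
  simp only [Uc, pr, Matrix.diagonal_mul_diagonal]
  congr 1
  funext x
  by_cases hx : x ∈ Q
  · simp [wCl, hx, h hx]
  · simp [wCl, hx]

lemma pr_Uc : pr Q * Uc w Q v = Uc w Q v := by
  simp only [Uc, pr, Matrix.diagonal_mul_diagonal]
  congr 1
  funext x
  by_cases hx : x ∈ Q <;> simp [wCl, hx]

lemma cmp_Tc : cmp (Tc A w Q v) Q = Tc A w Q v := by
  rw [cmp_eq, Tc, mul_sub, sub_mul, pr_Uc, Uc_pr subset_rfl, ← mul_assoc, ← mul_assoc, pr_Uc,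
    mul_assoc _ (Uc w Q v), Uc_pr subset_rfl]

lemma U_G_T (h : Adm A w) (h' : Adm A (wCl w Q v)) :
    Uc w Q v * Gm A w * Tc A w Q v = Uc w Q v - Tc A w Q v := by
  have := h.resolvent h'
  rw [Tc, sub_sub_cancel]
  calc _ = Uc w Q v * (Gm A w - Gm A w * Uc w Q v * Gm A (wCl w Q v)) * Uc w Q v := by noncomm_ring
    _ = _ := by rw [Uc, ← this]

lemma norm_Tc {η : ℝ} (h0 : 0 < η) (h1 : η ≤ 1) (hu : ∀ x ∈ Q, ‖(v x : ℂ) - w x‖ ≤ 1)
    (hG : ‖cmp (Gm A (wCl w Q v)) Q‖ ≤ 2 / η) : ‖Tc A w Q v‖ ≤ 3 / η := by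
  have hU : ‖Uc w Q v‖ ≤ 1 := by
    refine norm_diagonal_le zero_le_one fun x => ?_
    by_cases hx : x ∈ Q
    · simpa [wCl, hx] using hu x hx
    · simp [wCl, hx]
  have e : Uc w Q v * Gm A (wCl w Q v) * Uc w Q v =
      Uc w Q v * cmp (Gm A (wCl w Q v)) Q * Uc w Q v := by
    rw [cmp_eq, ← mul_assoc, ← mul_assoc, Uc_pr subset_rfl, mul_assoc _ (pr Q), pr_Uc]
  have h2 : ‖Uc w Q v * cmp (Gm A (wCl w Q v)) Q * Uc w Q v‖ ≤ 1 * (2 / η) * 1 :=
    (norm_mul_le _ _).trans (mul_le_mul ((norm_mul_le _ _).trans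
      (mul_le_mul hU hG (norm_nonneg _) zero_le_one)) hU (norm_nonneg _) (by positivity))
  have h3 : 1 ≤ 1 / η := by rw [le_div_iff₀ h0]; linarith
  have h4 : 3 / η = 1 / η + 2 / η := by ring
  rw [Tc, e]
  refine (norm_sub_le _ _).trans ?_
  linarith

lemma half_bound {T Td E : Matrix ι ι ℂ} {a b e : ℝ} (h : T = Td - T * E * Td) (h1 : ‖Td‖ ≤ a)
    (h2 : ‖Td‖ ≤ b) (h3 : ‖E‖ ≤ e) (h4 : e * b ≤ 1 / 2) : ‖T‖ ≤ 2 * a := by
  have he : 0 ≤ e := (norm_nonneg _).trans h3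
  have h5 : ‖T * E * Td‖ ≤ ‖T‖ * e * b :=
    (norm_mul_le _ _).trans (mul_le_mul ((norm_mul_le _ _).trans
      (mul_le_mul_of_nonneg_left h3 (norm_nonneg _))) h2 (norm_nonneg _) (by positivity))
  have h6 : ‖T‖ ≤ ‖Td‖ + ‖T * E * Td‖ := by
    conv_lhs => rw [h]
    exact norm_sub_le _ _
  have h7 := mul_le_mul_of_nonneg_left h4 (norm_nonneg T)
  nlinarith

end Gen

lemma TW_neg {θ a : ℝ} {X : Matrix (Tor d M) (Tor d M) ℂ} (h : TW θ a X) : TW θ a (-X) :=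
  fun φ hφ => by rw [wt_neg, norm_neg]; exact h φ hφ

lemma TW_sub {θ a b : ℝ} {X Y : Matrix (Tor d M) (Tor d M) ℂ} (h : TW θ a X) (h' : TW θ b Y) :
    TW θ (a + b) (X - Y) := by
  rw [sub_eq_add_neg]; exact h.add (TW_neg h')

lemma disj (h : Rel A w O Cs B v θ θ' Ag η g K1 tn Dm R) {c c' x : Tor d M} (hc : c ∈ Cs)
    (hc' : c' ∈ Cs) (hx : x ∈ B c) (hx' : x ∈ B c') : c = c' := by
  by_contra hne
  have := h.iso c hc c' hc' hne x hx x hx'
  rw [tdist_self] at this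
  omega

lemma mem_O (h : Rel A w O Cs B v θ θ' Ag η g K1 tn Dm R) {c x : Tor d M} (hc : c ∈ Cs)
    (hx : x ∈ B c) : x ∈ O :=
  h.ports x (lt_of_lt_of_le h.g0 (h.gam_ge c hc x hx)).ne'

lemma card_le (h : Rel A w O Cs B v θ θ' Ag η g K1 tn Dm R) {S : Finset (Tor d M)} (hS : S ⊆ Cs)
    (x : Tor d M) : ((S.filter fun c => x ∈ B c).card : ℝ) ≤ 1 := by
  have : (S.filter fun c => x ∈ B c).card ≤ 1 := card_le_one.2 fun c hc c' hc' =>
    disj h (hS (mem_filter.1 hc).1) (hS (mem_filter.1 hc').1) (mem_filter.1 hc).2 (mem_filter.1 hc').2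
  exact_mod_cast this

lemma norm_Tc' (h : Rel A w O Cs B v θ θ' Ag η g K1 tn Dm R) {c : Tor d M} (hc : c ∈ Cs) :
    ‖Tc A w (B c) v‖ ≤ 3 / η := norm_Tc h.η0 h.η1 (h.u_le c hc) (h.good c hc).2

lemma norm_Td (h : Rel A w O Cs B v θ θ' Ag η g K1 tn Dm R) :
    ‖∑ c ∈ Cs, Tc A w (B c) v‖ ≤ 3 / η := by
  have := norm_sum_local_le Cs (fun c => Tc A w (B c) v) B (a := 3 / η) (n := 1)
    (by have := h.η0; positivity) (fun c hc => ⟨cmp_Tc, norm_Tc' h hc⟩) (card_le h subset_rfl)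
  simpa using this

lemma one_le_K1 (h : Rel A w O Cs B v θ θ' Ag η g K1 tn Dm R) : 1 ≤ K1 := by
  have h1 : 1 ≤ Real.exp (2 * θ' * Dm) := Real.one_le_exp (by have := h.θ0; positivity)
  have h2 : 1 ≤ 3 / η := by rw [le_div_iff₀ h.η0]; linarith [h.η1]
  nlinarith [h.hK1]

lemma TW_Td (h : Rel A w O Cs B v θ θ' Ag η g K1 tn Dm R) {S : Finset (Tor d M)} (hS : S ⊆ Cs) :
    TW θ' K1 (∑ c ∈ S, Tc A w (B c) v) := by
  intro φ hφ
  rw [wt_sum]
  have := norm_sum_local_le S (fun c => wt θ' φ (Tc A w (B c) v)) B (a := K1) (n := 1)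
    (by linarith [one_le_K1 h]) (fun c hc => ⟨cmp_wt _ _ cmp_Tc, ?_⟩) (card_le h hS)
  · simpa using this
  · refine (norm_wt_le h.θ0.le cmp_Tc (c := φ c) (D := Dm) fun x hx => ?_).trans ?_
    · refine (hφ x c).trans ?_
      exact_mod_cast mem_tball.1 (h.diam c (hS hc) hx)
    · exact (mul_le_mul_of_nonneg_left (norm_Tc' h (hS hc)) (Real.exp_pos _).le).trans h.hK1

lemma Td_supp {S : Finset (Tor d M)} {x y : Tor d M} (h0 : (∑ c ∈ S, Tc A w (B c) v) x y ≠ 0) :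
    ∃ c ∈ S, x ∈ B c ∧ y ∈ B c := by
  rw [Matrix.sum_apply] at h0
  obtain ⟨c, hc, h1⟩ := exists_ne_zero_of_sum_ne_zero h0
  exact ⟨c, hc, mem_of_ne cmp_Tc h1⟩

lemma θ_pos (h : Rel A w O Cs B v θ θ' Ag η g K1 tn Dm R) : 0 < θ := by linarith [h.θ0, h.θ1]

lemma two_le_S (h : Rel A w O Cs B v θ θ' Ag η g K1 tn Dm R) : (2 : ℝ) ≤ 12 * d / θ := by
  have : (1 : ℝ) ≤ d := by exact_mod_cast h.hd
  rw [le_div_iff₀ (θ_pos h)]
  linarith [h.θ2]

/-- the smallness budget -/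
lemma budget (h : Rel A w O Cs B v θ θ' Ag η g K1 tn Dm R) :
    40 * (Ag ^ 3 * K1 ^ 2 * ((12 * d / θ) ^ d) ^ 2 * Real.exp (-θ * R / 2)) ≤ tn := by
  refine le_trans ?_ h.htn
  have hv := one_le_vol (d := d) (M := M) (Dm + R)
  have hg : 1 ≤ 1 / g ^ 2 := by
    rw [le_div_iff₀ (by have := h.g0; positivity), one_mul]
    exact pow_le_one₀ h.g0.le h.g1
  have hA := h.Ag1
  have hK := one_le_K1 h
  have hS := two_le_S h
  have e : 40 * vol d M (Dm + R) * Ag ^ 3 * K1 ^ 2 * (12 * d / θ) ^ (2 * d) / g ^ 2 *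
      Real.exp (-θ * R / 2) =
      40 * (Ag ^ 3 * K1 ^ 2 * ((12 * d / θ) ^ d) ^ 2 * Real.exp (-θ * R / 2)) *
        (vol d M (Dm + R) * (1 / g ^ 2)) := by
    rw [mul_comm 2 d, pow_mul]; ring
  rw [e]
  exact le_mul_of_one_le_right (by positivity) (one_le_mul_of_one_le_of_one_le hv hg)

/-- the off-block part of `G` -/
noncomputable def Eo (G : Matrix (Tor d M) (Tor d M) ℂ) (Cs : Finset (Tor d M))
    (B : Tor d M → Finset (Tor d M)) : Matrix (Tor d M) (Tor d M) ℂ :=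
  cmp G (Cs.biUnion B) - ∑ c ∈ Cs, cmp G (B c)

lemma TW_E (h : Rel A w O Cs B v θ θ' Ag η g K1 tn Dm R) :
    TW θ' (Ag * (12 * d / θ) ^ d * Real.exp (-θ * R)) (Eo (Gm A w) Cs B) := by
  have hA : 0 ≤ Ag := by linarith [h.Ag1]
  have h1 := TW.of_entry (D := 4 * R) (X := Eo (Gm A w) Cs B) (θ_pos h) h.θ2 hA (fun a b => ?_)
  · refine h1.mono h.θ0.le (by linarith [h.θ1, h.θ0]) (le_of_eq ?_)
    have : -θ * ((4 * R : ℕ) : ℝ) / 4 = -θ * R := by push_cast; ring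
    rw [this]; ring
  have hnn : (0 : ℝ) ≤ if 4 * R < tdist a b then Ag * Real.exp (-θ * tdist a b) else 0 := by
    split_ifs <;> positivity
  simp only [Eo, Matrix.sub_apply, Matrix.sum_apply, cmp]
  by_cases hab : a ∈ Cs.biUnion B ∧ b ∈ Cs.biUnion B
  · rw [if_pos hab]
    obtain ⟨c, hc, ha⟩ := mem_biUnion.1 hab.1
    obtain ⟨c', hc', hb⟩ := mem_biUnion.1 hab.2
    by_cases hcc : c = c'
    · subst hcc
      rw [sum_eq_single c (fun e he hne => if_neg fun h2 => hne (disj h he hc h2.1 ha))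
        (fun h2 => absurd hc h2), if_pos ⟨ha, hb⟩, sub_self, norm_zero]
      exact hnn
    · rw [sum_eq_zero fun e he => if_neg fun h2 =>
        hcc ((disj h hc he ha h2.1).trans (disj h he hc' h2.2 hb)), sub_zero,
        if_pos (h.iso c hc c' hc' hcc a ha b hb)]
      have := h.tw.entry a b
      simp only [cmp, if_pos (And.intro (mem_O h hc ha) (mem_O h hc' hb))] at this
      exact this
  · rw [if_neg hab, sum_eq_zero fun e he => if_neg fun h2 =>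
      hab ⟨mem_biUnion.2 ⟨e, he, h2.1⟩, mem_biUnion.2 ⟨e, he, h2.2⟩⟩, sub_zero, norm_zero]
    exact hnn

lemma small (h : Rel A w O Cs B v θ θ' Ag η g K1 tn Dm R) :
    Ag * (12 * d / θ) ^ d * Real.exp (-θ * R) * K1 ≤ 1 / 2 := by
  have hb := budget h
  have hA := h.Ag1
  have hK := one_le_K1 h
  have hS : (1 : ℝ) ≤ (12 * d / θ) ^ d := one_le_pow₀ (by linarith [two_le_S h])
  have he : Real.exp (-θ * R) ≤ Real.exp (-θ * R / 2) := by
    rw [Real.exp_le_exp]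
    have : 0 ≤ θ * R := by have := θ_pos h; positivity
    linarith
  have h1 : Ag ≤ Ag ^ 3 := le_self_pow₀ hA (by norm_num)
  have h2 : K1 ≤ K1 ^ 2 := le_self_pow₀ hK (by norm_num)
  have h3 : ((12 * d / θ) ^ d : ℝ) ≤ ((12 * d / θ) ^ d) ^ 2 := le_self_pow₀ hS (by norm_num)
  have h4 : Ag * K1 * (12 * d / θ) ^ d * Real.exp (-θ * R) ≤
      Ag ^ 3 * K1 ^ 2 * ((12 * d / θ) ^ d) ^ 2 * Real.exp (-θ * R / 2) := by gcongr
  have := h.tn1
  nlinarith

lemma pr_Td (h : Rel A w O Cs B v θ θ' Ag η g K1 tn Dm R) {c : Tor d M} (hc : c ∈ Cs) :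
    pr (B c) * ∑ e ∈ Cs, Tc A w (B e) v = Tc A w (B c) v := by
  ext a b
  rw [pr_mul_apply, Matrix.sum_apply]
  split_ifs with ha
  · refine sum_eq_single c (fun e he hne => ?_) (fun h2 => absurd hc h2)
    by_contra h0
    exact hne (disj h he hc (mem_of_ne cmp_Tc h0).1 ha)
  · by_contra h0
    exact ha (mem_of_ne cmp_Tc (Ne.symm h0)).1

lemma pr_Td' : pr (Cs.biUnion B) * ∑ e ∈ Cs, Tc A w (B e) v = ∑ e ∈ Cs, Tc A w (B e) v := by
  ext a b
  rw [pr_mul_apply]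
  split_ifs with ha
  · rfl
  · by_contra h0
    obtain ⟨c, hc, h1, -⟩ := Td_supp (Ne.symm h0)
    exact ha (mem_biUnion.2 ⟨c, hc, h1⟩)

lemma sum_Uc (h : Rel A w O Cs B v θ θ' Ag η g K1 tn Dm R) :
    ∑ c ∈ Cs, Uc w (B c) v = Uc w (Cs.biUnion B) v := by
  ext a b
  rw [Matrix.sum_apply]
  by_cases hab : a = b
  · subst hab
    simp only [Uc, Matrix.diagonal_apply_eq, Pi.sub_apply, wCl]
    split_ifs with ha
    · obtain ⟨c, hc, h1⟩ := mem_biUnion.1 ha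
      rw [sum_eq_single c (fun e he hne => ?_) (fun h2 => absurd hc h2), if_pos h1]
      rw [if_neg fun h2 => hne (disj h he hc h2 h1), sub_self]
    · rw [sub_self]
      refine sum_eq_zero fun e he => ?_
      rw [if_neg fun h2 => ha (mem_biUnion.2 ⟨e, he, h2⟩), sub_self]
  · simp only [Uc, Matrix.diagonal_apply_ne _ hab, sum_const_zero]

lemma key (h : Rel A w O Cs B v θ θ' Ag η g K1 tn Dm R) :
    (1 + Uc w (Cs.biUnion B) v * Gm A w) * ∑ c ∈ Cs, Tc A w (B c) v =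
      Uc w (Cs.biUnion B) v * (1 + Eo (Gm A w) Cs B * ∑ c ∈ Cs, Tc A w (B c) v) := by
  set Td := ∑ c ∈ Cs, Tc A w (B c) v with hTd
  set U := Uc w (Cs.biUnion B) v with hU
  have h1 : U * cmp (Gm A w) (Cs.biUnion B) * Td = U * Gm A w * Td := by
    rw [cmp_eq, ← mul_assoc, ← mul_assoc, hU, Uc_pr subset_rfl, mul_assoc _ (pr _), hTd, pr_Td']
  have h2 : U * (∑ c ∈ Cs, cmp (Gm A w) (B c)) * Td = U - Td := by
    have h3 : U - Td = ∑ c ∈ Cs, (Uc w (B c) v - Tc A w (B c) v) := by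
      rw [sum_sub_distrib, sum_Uc h]
    rw [h3, mul_sum Cs (fun c => cmp (Gm A w) (B c)), sum_mul]
    refine sum_congr rfl fun c hc => ?_
    rw [cmp_eq, ← mul_assoc, ← mul_assoc, hU, Uc_pr (subset_biUnion_of_mem B hc),
      mul_assoc _ (pr _), hTd, pr_Td h hc, U_G_T h.adm (h.good c hc).1]
  calc (1 + U * Gm A w) * Td = U + (U * Gm A w * Td - (U - Td)) := by noncomm_ring
    _ = _ := by rw [← h1, ← h2, Eo]; noncomm_ring

theorem main (h : Rel A w O Cs B v θ θ' Ag η g K1 tn Dm R) :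
    Adm A (wCl w (Cs.biUnion B) v) ∧ ∃ T : Matrix (Tor d M) (Tor d M) ℂ,
      Gm A (wCl w (Cs.biUnion B) v) = Gm A w - Gm A w * T * Gm A w ∧
      cmp T (Cs.biUnion B) = T ∧ ‖T‖ ≤ 6 / η ∧ TW θ' (2 * K1) T ∧
      TW θ' (2 * K1 ^ 2 * Ag * (12 * d / θ) ^ d * Real.exp (-θ * R))
        (T - ∑ c ∈ Cs, Tc A w (B c) v) := by
  have hk := key h
  have hsupp : ∀ x y, (∑ c ∈ Cs, Tc A w (B c) v) x y ≠ 0 →
      x ∈ Cs.biUnion B ∧ y ∈ Cs.biUnion B := fun x y h0 => by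
    obtain ⟨c, hc, h1, h2⟩ := Td_supp h0
    exact ⟨mem_biUnion.2 ⟨c, hc, h1⟩, mem_biUnion.2 ⟨c, hc, h2⟩⟩
  have hd1 := TW_Td h subset_rfl
  have hd2 := norm_Td h
  have hE := TW_E h
  have hs := small h
  set Td := ∑ c ∈ Cs, Tc A w (B c) v with hTd
  set U := Uc w (Cs.biUnion B) v with hU
  set E := Eo (Gm A w) Cs B
  have hn : ‖-(E * Td)‖ < 1 := by
    rw [norm_neg]
    exact lt_of_le_of_lt ((hE.mul hd1).norm.trans hs) (by norm_num)
  have hu : IsUnit (1 + E * Td) := by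
    have := isUnit_one_sub_of_norm_lt_one hn
    rwa [sub_neg_eq_add] at this
  have hdet := (Matrix.isUnit_iff_isUnit_det _).1 hu
  set T := Td * (1 + E * Td)⁻¹ with hT
  have hT1 : T = Td - T * E * Td := by
    have : T * (1 + E * Td) = Td := by rw [hT, mul_assoc, Matrix.nonsing_inv_mul _ hdet, mul_one]
    rw [mul_add, mul_one, ← mul_assoc] at this
    exact eq_sub_of_add_eq this
  have hT2 : (1 + U * Gm A w) * T = U := by
    rw [hT, ← mul_assoc, hk, mul_assoc, Matrix.mul_nonsing_inv _ hdet, mul_one]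
  have hH : Hm A (wCl w (Cs.biUnion B) v) = Hm A w + U := by
    rw [hU, Uc, Hm, Hm, add_assoc, Matrix.diagonal_add]
    congr 2
    funext x
    simp
  have hG : Hm A w * Gm A w = 1 := Matrix.mul_nonsing_inv _ h.adm.inv
  have hinv : Hm A (wCl w (Cs.biUnion B) v) * (Gm A w - Gm A w * T * Gm A w) = 1 := by
    calc _ = Hm A w * Gm A w + U * Gm A w - (Hm A w * Gm A w + U * Gm A w) * T * Gm A w := by
          rw [hH]; noncomm_ring
      _ = 1 := by rw [hG, hT2, add_sub_cancel_right]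
  have hTW : TW θ' (2 * K1) T := fun φ hφ =>
    half_bound (Td := wt θ' φ Td) (E := wt θ' φ E)
      (by rw [← wt_mul, ← wt_mul, ← wt_sub, ← hT1]) (hd1 φ hφ) (hd1 φ hφ) (hE φ hφ) hs
  refine ⟨⟨h.adm.symm, h.adm.herm, fun x => ?_, Matrix.isUnit_det_of_right_inverse hinv⟩, T,
    Matrix.inv_eq_right_inv hinv, ?_, ?_, hTW, ?_⟩
  · have := h.adm.diss x
    simp only [gam, wCl] at this ⊢
    split_ifs
    · simp
    · exact this
  · refine cmp_of_mem fun a b h0 => ⟨?_, ?_⟩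
    · rw [hT, Matrix.mul_apply] at h0
      obtain ⟨x, -, h1⟩ := exists_ne_zero_of_sum_ne_zero h0
      exact (hsupp a x (left_ne_zero_of_mul h1)).1
    · have e : T = (1 - T * E) * Td := by rw [sub_mul, one_mul]; exact hT1
      rw [e, Matrix.mul_apply] at h0
      obtain ⟨x, -, h1⟩ := exists_ne_zero_of_sum_ne_zero h0
      exact (hsupp x b (right_ne_zero_of_mul h1)).2
  · have := half_bound hT1 hd2 hd1.norm hE.norm hs
    calc ‖T‖ ≤ 2 * (3 / η) := this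
      _ = 6 / η := by ring
  · have e : T - Td = -(T * E * Td) := by
      conv_lhs => rw [hT1]
      abel
    rw [e]
    refine (TW_neg ((hTW.mul hE).mul hd1)).mono h.θ0.le le_rfl (le_of_eq ?_)
    ring

lemma TW_G (h : Rel A w O Cs B v θ θ' Ag η g K1 tn Dm R) : TW θ' Ag (cmp (Gm A w) O) :=
  h.tw.mono h.θ0.le (by linarith [h.θ1, h.θ0]) le_rfl

lemma GTG (h : Rel A w O Cs B v θ θ' Ag η g K1 tn Dm R) {T : Matrix (Tor d M) (Tor d M) ℂ}
    (hT : cmp T (Cs.biUnion B) = T) {a b : Tor d M} (ha : a ∈ O) (hb : b ∈ O) :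
    (Gm A w * T * Gm A w) a b = (cmp (Gm A w) O * T * cmp (Gm A w) O) a b := by
  refine triple_congr fun x y h0 => ?_
  obtain ⟨hx, hy⟩ := mem_of_ne hT h0
  obtain ⟨c, hc, hx⟩ := mem_biUnion.1 hx
  obtain ⟨c', hc', hy⟩ := mem_biUnion.1 hy
  simp only [cmp, if_pos (And.intro ha (mem_O h hc hx)), if_pos (And.intro (mem_O h hc' hy) hb),
    and_self]

/-- the far part of a matrix -/
def farP (X : Matrix (Tor d M) (Tor d M) ℂ) (R : ℕ) : Matrix (Tor d M) (Tor d M) ℂ := fun a b =>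
  if R < tdist a b then X a b else 0

lemma TW_far (h : Rel A w O Cs B v θ θ' Ag η g K1 tn Dm R) :
    TW θ' (Ag * Real.exp (-θ * R / 2) * ((12 * d / θ) ^ d) ^ 2) (farP (cmp (Gm A w) O) R) := by
  have hA : 0 ≤ Ag := by linarith [h.Ag1]
  have hθ := θ_pos h
  have h1 := TW.of_entry (θ := θ / 2) (A := Ag * Real.exp (-θ * R / 2)) (D := R)
    (X := farP (cmp (Gm A w) O) R) (by positivity) (by linarith [h.θ2]) (by positivity)
    (fun a b => ?_)
  · refine h1.mono h.θ0.le (by linarith [h.θ1]) ?_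
    have hS := two_le_S h
    have e1 : Real.exp (-(θ / 2) * R / 4) ≤ 1 := by
      rw [Real.exp_le_one_iff]
      have : 0 ≤ θ * R := by positivity
      linarith
    have e2 : (12 * d / (θ / 2) : ℝ) ^ d ≤ ((12 * d / θ) ^ d) ^ 2 := by
      have : (12 * d / (θ / 2) : ℝ) = 2 * (12 * d / θ) := by field_simp
      rw [this, sq, ← mul_pow]
      gcongr
    calc _ ≤ Ag * Real.exp (-θ * R / 2) * 1 * ((12 * d / θ) ^ d) ^ 2 := by gcongr
      _ = _ := by ring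
  simp only [farP]
  split_ifs with hab
  · refine (h.tw.entry a b).trans ?_
    rw [mul_assoc, ← Real.exp_add]
    refine mul_le_mul_of_nonneg_left (Real.exp_le_exp.2 ?_) hA
    have : (R : ℝ) ≤ tdist a b := by exact_mod_cast hab.le
    nlinarith
  · simp

end Rel1

open Rel1

theorem Rel.exists_T (h : Rel A w O Cs B v θ θ' Ag η g K1 tn Dm R) :
    Adm A (wCl w (Cs.biUnion B) v) ∧ ∃ T Td : Matrix (Tor d M) (Tor d M) ℂ,
      Gm A (wCl w (Cs.biUnion B) v) = Gm A w - Gm A w * T * Gm A w ∧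
      cmp T (Cs.biUnion B) = T ∧ ‖T‖ ≤ 6 / η ∧ TW θ' (2 * K1) T ∧
      (∀ x x', Td x x' ≠ 0 → ∃ c ∈ Cs, x ∈ B c ∧ x' ∈ B c) ∧ ‖Td‖ ≤ 3 / η ∧
      TW θ' (2 * K1 ^ 2 * Ag * (12 * d / θ) ^ d * Real.exp (-θ * R)) (T - Td) := by
  obtain ⟨h0, T, h1, h2, h3, h4, h5⟩ := main h
  exact ⟨h0, T, _, h1, h2, h3, h4, fun x x' hx => Td_supp hx, norm_Td h, h5⟩

theorem Rel.ref (h : Rel A w O Cs B v θ θ' Ag η g K1 tn Dm R) {a b : Tor d M} (ha : a ∈ O)
    (hb : b ∈ O) : ‖Gm A (wCl w (Cs.biUnion B) v) a b‖ ≤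
      (Ag + 2 * Ag ^ 2 * K1) * Real.exp (-θ' * tdist a b) := by
  obtain ⟨-, T, h1, h2, -, h4, -⟩ := main h
  have hG := TW_G h
  have h5 := (TW_sub hG ((hG.mul h4).mul hG)).entry a b
  have e : Gm A (wCl w (Cs.biUnion B) v) a b =
      (cmp (Gm A w) O - cmp (Gm A w) O * T * cmp (Gm A w) O) a b := by
    rw [h1, Matrix.sub_apply, Matrix.sub_apply, GTG h h2 ha hb]
    simp only [cmp, if_pos (And.intro ha hb)]
  rw [e]
  refine h5.trans (le_of_eq ?_)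
  ring

theorem Rel.far (h : Rel A w O Cs B v θ θ' Ag η g K1 tn Dm R) {a b : Tor d M} (ha : a ∈ O)
    (hb : b ∈ O) (hab : ¬ ∃ c ∈ Cs, a ∈ nbhd (B c) R ∧ b ∈ nbhd (B c) R) :
    ‖Gm A (wCl w (Cs.biUnion B) v) a b - Gm A w a b‖ ≤ tn * Real.exp (-θ' * tdist a b) := by
  obtain ⟨-, T, h1, h2, -, -, h5⟩ := main h
  have hG := TW_G h
  have hF := TW_far h
  set G := cmp (Gm A w) O with hGd
  set T1 := ∑ c ∈ Cs.filter (fun c => a ∉ nbhd (B c) R), Tc A w (B c) v with hT1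
  set T2 := ∑ c ∈ Cs.filter (fun c => ¬ a ∉ nbhd (B c) R), Tc A w (B c) v with hT2
  have hsum : ∑ c ∈ Cs, Tc A w (B c) v = T1 + T2 := (sum_filter_add_sum_filter_not _ _ _).symm
  have t1 : TW θ' K1 T1 := TW_Td h (filter_subset _ _)
  have t2 : TW θ' K1 T2 := TW_Td h (filter_subset _ _)
  rw [hsum] at h5
  have e1 : (G * T1 * G) a b = (farP G R * T1 * G) a b := by
    refine triple_congr fun x y h0 => ⟨?_, rfl⟩
    obtain ⟨c, hc, hx, -⟩ := Td_supp h0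
    have : R < tdist a x := by
      by_contra h3
      exact (mem_filter.1 hc).2 (mem_filter.2 ⟨mem_univ _, x, hx, not_lt.1 h3⟩)
    simp only [farP, if_pos this]
  have e2 : (G * T2 * G) a b = (G * T2 * farP G R) a b := by
    refine triple_congr fun x y h0 => ⟨rfl, ?_⟩
    obtain ⟨c, hc, -, hy⟩ := Td_supp h0
    have : R < tdist y b := by
      by_contra h3
      refine hab ⟨c, (mem_filter.1 hc).1, not_not.1 (mem_filter.1 hc).2,
        mem_filter.2 ⟨mem_univ _, y, hy, ?_⟩⟩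
      rw [tdist_comm]; exact not_lt.1 h3
    simp only [farP, if_pos this]
  have e : Gm A (wCl w (Cs.biUnion B) v) a b - Gm A w a b =
      (-(farP G R * T1 * G + G * T2 * farP G R + G * (T - (T1 + T2)) * G)) a b := by
    have e3 : G * T * G = G * T1 * G + G * T2 * G + G * (T - (T1 + T2)) * G := by noncomm_ring
    rw [h1, Matrix.sub_apply, GTG h h2 ha hb, ← hGd, e3]
    simp only [Matrix.add_apply, Matrix.neg_apply, e1, e2]
    ring
  have h6 := (TW_neg ((((hF.mul t1).mul hG).add ((hG.mul t2).mul hF)).add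
    ((hG.mul h5).mul hG))).entry a b
  rw [e]
  refine h6.trans (mul_le_mul_of_nonneg_right ?_ (Real.exp_pos _).le)
  have hb := budget h
  have hA := h.Ag1
  have hK := one_le_K1 h
  have hS : (1 : ℝ) ≤ (12 * d / θ) ^ d := one_le_pow₀ (by linarith [two_le_S h])
  have he : Real.exp (-θ * R) ≤ Real.exp (-θ * R / 2) := by
    rw [Real.exp_le_exp]
    have : 0 ≤ θ * R := by have := θ_pos h; positivity
    linarith
  generalize ((12 * d / θ) ^ d : ℝ) = S at *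
  have p1 : Ag ^ 2 ≤ Ag ^ 3 := pow_le_pow_right₀ hA (by norm_num)
  have p2 : K1 ≤ K1 ^ 2 := le_self_pow₀ hK (by norm_num)
  have p3 : S ≤ S ^ 2 := le_self_pow₀ hS (by norm_num)
  have q1 : Ag ^ 2 * K1 * S ^ 2 * Real.exp (-θ * R / 2) ≤
      Ag ^ 3 * K1 ^ 2 * S ^ 2 * Real.exp (-θ * R / 2) := by gcongr
  have q2 : Ag ^ 3 * K1 ^ 2 * S * Real.exp (-θ * R) ≤
      Ag ^ 3 * K1 ^ 2 * S ^ 2 * Real.exp (-θ * R / 2) := by gcongr
  have q3 : 0 ≤ Ag ^ 3 * K1 ^ 2 * S ^ 2 * Real.exp (-θ * R / 2) := by positivity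
  calc _ = 2 * (Ag ^ 2 * K1 * S ^ 2 * Real.exp (-θ * R / 2)) +
        2 * (Ag ^ 3 * K1 ^ 2 * S * Real.exp (-θ * R)) := by ring
    _ ≤ tn := by linarith

end Crest.Agent.N334.AC
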