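import Crest.Agent.N334.AC.L.Defs

/-! # S0520 part L: scalar facts on `tau` and `beta` (leaf).
`tau_gap`: pick a unit `z` with `z² S = |S|`, `S = avg τ²`; then `|S| = avg |τ|² - 2 avg (Im zτ)²`,
and `Im (z τ_k)` is a quadratic polynomial in `val k` up to `5 C² σ³`, whose first or second
difference at step `N / 3` is at least `0.6 σ² / C`. -/

set_option autoImplicit false

open Finset Complex

namespace Crest.Agent.N334.AC

/-- standing smallness assumptions -/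
structure Sml (C σ : ℝ) (N : ℕ) : Prop where
  C1 : 1 ≤ C
  σ0 : 0 < σ
  σ1 : 1000 * C ^ 3 * σ ≤ 1
  N1 : 1 ≤ σ ^ 2 * N

variable {C σ r : ℝ} {N : ℕ} {g g' w w' : ℂ}

namespace TauH

lemma Cs (h : Sml C σ N) : C * σ ≤ 1 / 1000 := by
  have h1 := h.C1
  have h2 := h.σ0
  have h3 := h.σ1
  have h4 : C ≤ C ^ 3 := le_self_pow₀ h1 (by norm_num)
  nlinarith [mul_le_mul_of_nonneg_right h4 h2.le]

lemma C2s (h : Sml C σ N) : C ^ 2 * σ ≤ 1 / 1000 := by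
  have h1 := h.C1
  have h2 := h.σ0
  have h3 := h.σ1
  have h4 : C ^ 2 ≤ C ^ 3 := pow_le_pow_right₀ h1 (by norm_num)
  nlinarith [mul_le_mul_of_nonneg_right h4 h2.le]

lemma s1 (h : Sml C σ N) : σ ≤ 1 / 1000 := by
  have h1 := h.C1
  have h2 := h.σ0
  have h3 := Cs h
  nlinarith

lemma Nbig (h : Sml C σ N) : (1000 : ℝ) ≤ N := by
  have h2 := h.σ0
  have h3 := s1 h
  have h4 := h.N1
  have h5 : (0 : ℝ) ≤ N := Nat.cast_nonneg _
  have h6 : σ ^ 2 ≤ 1 / 1000 := by nlinarith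
  nlinarith [mul_le_mul_of_nonneg_right h6 h5]

lemma w_le (h : Sml C σ N) (hw : ‖w‖ ≤ C * σ ^ 2) : ‖w‖ ≤ σ / 1000 := by
  have h2 := h.σ0
  have h3 := Cs h
  nlinarith

lemma u_le (h : Sml C σ N) (hw : ‖w‖ ≤ C * σ ^ 2) {v : ℝ} (hv : |v| ≤ σ) :
    ‖(v : ℂ) - w‖ ≤ 1001 / 1000 * σ := by
  have h1 := norm_sub_le (v : ℂ) w
  rw [Complex.norm_real, Real.norm_eq_abs] at h1
  have := w_le h hw
  linarith

lemma den_ge (h : Sml C σ N) (hg : ‖g‖ ≤ C) (hw : ‖w‖ ≤ C * σ ^ 2) {v : ℝ} (hv : |v| ≤ σ) :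
    998 / 1000 ≤ ‖1 + ((v : ℂ) - w) * g‖ := by
  have h1 := u_le h hw hv
  have h2 : ‖((v : ℂ) - w) * g‖ ≤ 1001 / 1000 * σ * C := by
    rw [norm_mul]
    exact mul_le_mul h1 hg (norm_nonneg _) (by have := h.σ0; positivity)
  have h3 := Cs h
  have h4 : ‖(1 : ℂ)‖ ≤ ‖1 + ((v : ℂ) - w) * g‖ + ‖((v : ℂ) - w) * g‖ := by
    have := norm_sub_le (1 + ((v : ℂ) - w) * g) (((v : ℂ) - w) * g)
    rwa [add_sub_cancel_right] at this
  rw [norm_one] at h4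
  nlinarith

lemma inv_den_le (h : Sml C σ N) (hg : ‖g‖ ≤ C) (hw : ‖w‖ ≤ C * σ ^ 2) {v : ℝ} (hv : |v| ≤ σ) :
    ‖(1 + ((v : ℂ) - w) * g)⁻¹‖ ≤ 1003 / 1000 := by
  have h1 := den_ge h hg hw hv
  rw [norm_inv]
  calc _ ≤ (998 / 1000 : ℝ)⁻¹ := inv_anti₀ (by norm_num) h1
    _ ≤ _ := by norm_num

lemma sum_id (N : ℕ) : ∑ k ∈ range N, (k : ℝ) = N * (N - 1) / 2 := by
  induction N with
  | zero => simp
  | succ n ih => rw [sum_range_succ, ih]; push_cast; ring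

lemma sum_sq (N : ℕ) : ∑ k ∈ range N, (k : ℝ) ^ 2 = (N - 1) * N * (2 * N - 1) / 6 := by
  induction N with
  | zero => simp
  | succ n ih => rw [sum_range_succ, ih]; push_cast; ring

lemma avg_val (hN : 0 < N) (σ r : ℝ) : avg N (fun k => val σ N r k) = σ * (2 * r - 1) / N := by
  have hN' : (N : ℝ) ≠ 0 := by positivity
  have : ∀ k : ℕ, val σ N r k = (2 * σ / N) * k + σ * (2 * r / N - 1) := fun k => by
    rw [val]; field_simp; ring
  simp only [avg, this, sum_add_distrib, ← mul_sum, sum_id, sum_const, card_range, nsmul_eq_mul]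
  field_simp
  ring

lemma avg_val_sq (hN : 0 < N) (σ r : ℝ) : avg N (fun k => val σ N r k ^ 2) =
    σ ^ 2 / 3 + σ ^ 2 * (2 / 3 - 4 * r * (1 - r)) / N ^ 2 := by
  have hN' : (N : ℝ) ≠ 0 := by positivity
  have : ∀ k : ℕ, val σ N r k ^ 2 = (2 * σ / N) ^ 2 * k ^ 2 +
      (2 * (2 * σ / N) * (σ * (2 * r / N - 1))) * k + (σ * (2 * r / N - 1)) ^ 2 := fun k => by
    rw [val]; field_simp; ring
  simp only [avg, this, sum_add_distrib, ← mul_sum, sum_id, sum_sq, sum_const, card_range,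
    nsmul_eq_mul]
  field_simp
  ring

lemma invN (h : Sml C σ N) : 1 / (N : ℝ) ≤ σ ^ 2 := by
  have h1 := Nbig h
  rw [div_le_iff₀ (by linarith)]
  exact h.N1

lemma abs_avg_val (h : Sml C σ N) (hr : 0 ≤ r ∧ r ≤ 1) :
    |avg N (fun k => val σ N r k)| ≤ σ ^ 3 := by
  have h1 := Nbig h
  have hN : 0 < N := by exact_mod_cast (show (0 : ℝ) < N by linarith)
  have h2 := invN h
  have h3 := h.σ0
  have h4 : |2 * r - 1| ≤ 1 := abs_le.2 ⟨by linarith [hr.1], by linarith [hr.2]⟩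
  rw [avg_val hN, abs_div, abs_mul, abs_of_pos h3, Nat.abs_cast]
  calc σ * |2 * r - 1| / N = σ * |2 * r - 1| * (1 / N) := by ring
    _ ≤ σ * 1 * σ ^ 2 := by gcongr
    _ = σ ^ 3 := by ring

lemma abs_avg_val_sq (h : Sml C σ N) (hr : 0 ≤ r ∧ r ≤ 1) :
    |avg N (fun k => val σ N r k ^ 2) - σ ^ 2 / 3| ≤ σ ^ 4 := by
  have h1 := Nbig h
  have hN : 0 < N := by exact_mod_cast (show (0 : ℝ) < N by linarith)
  have h2 := invN h
  have h3 := h.σ0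
  have h4 : |2 / 3 - 4 * r * (1 - r)| ≤ 1 :=
    abs_le.2 ⟨by nlinarith [sq_nonneg (2 * r - 1)], by nlinarith [hr.1, hr.2]⟩
  have h5 : 1 / (N : ℝ) ≤ 1 := by rw [div_le_one (by linarith)]; linarith
  rw [avg_val_sq hN, add_sub_cancel_left, abs_div, abs_mul, abs_of_pos (pow_pos h3 2), abs_pow,
    Nat.abs_cast]
  calc σ ^ 2 * |2 / 3 - 4 * r * (1 - r)| / N ^ 2
      = σ ^ 2 * |2 / 3 - 4 * r * (1 - r)| * (1 / N) * (1 / N) := by ring
    _ ≤ σ ^ 2 * 1 * σ ^ 2 * 1 := by gcongr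
    _ = σ ^ 4 := by ring

lemma avgV_add (N : ℕ) (f g : ℕ → ℂ) : avgV N (fun k => f k + g k) = avgV N f + avgV N g := by
  rw [avgV, avgV, avgV, sum_add_distrib, smul_add]

lemma avgV_sub (N : ℕ) (f g : ℕ → ℂ) : avgV N (fun k => f k - g k) = avgV N f - avgV N g := by
  rw [avgV, avgV, avgV, sum_sub_distrib, smul_sub]

lemma avgV_const (hN : 0 < N) (c : ℂ) : avgV N (fun _ => c) = c := by
  have hN' : (N : ℝ) ≠ 0 := by positivity
  rw [avgV, sum_const, card_range, ← Nat.cast_smul_eq_nsmul ℝ, smul_smul, inv_mul_cancel₀ hN',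
    one_smul]

lemma avgV_ofReal (N : ℕ) (f : ℕ → ℝ) : avgV N (fun k => (f k : ℂ)) = (avg N f : ℝ) := by
  rw [avgV, avg, ← Complex.ofReal_sum, Complex.real_smul, ← Complex.ofReal_mul, inv_mul_eq_div]

lemma norm_avgV_le' (hN : 0 < N) {f : ℕ → ℂ} {c : ℝ} (hf : ∀ k < N, ‖f k‖ ≤ c) :
    ‖avgV N f‖ ≤ c :=
  (norm_avgV_le N f).trans ((avg_mono hf).trans (avg_const hN c).le)

end TauH

open TauH

lemma Sml.N_pos (h : Sml C σ N) : 0 < N := by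
  have h1 := Nbig h
  exact_mod_cast (show (0 : ℝ) < N by linarith)
lemma abs_val_le (hσ : 0 ≤ σ) (hr : 0 ≤ r ∧ r ≤ 1) {k : ℕ} (hk : k < N) : |val σ N r k| ≤ σ := by
  have hN : (0 : ℝ) < N := by exact_mod_cast (lt_of_le_of_lt (Nat.zero_le k) hk)
  have hk' : (k : ℝ) + 1 ≤ N := by exact_mod_cast hk
  have h0 : 0 ≤ ((k : ℝ) + r) / N := div_nonneg (add_nonneg (Nat.cast_nonneg _) hr.1) hN.le
  have h1 : ((k : ℝ) + r) / N ≤ 1 := by rw [div_le_one hN]; linarith [hr.2]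
  rw [val, abs_mul, abs_of_nonneg hσ]
  exact mul_le_of_le_one_right hσ (abs_le.2 ⟨by linarith, by linarith⟩)
lemma val_add (σ r : ℝ) (N k i : ℕ) : val σ N r (k + i) = val σ N r k + i * (2 * σ / N) := by
  simp only [val]
  push_cast
  ring
lemma Sml.den (h : Sml C σ N) (hg : ‖g‖ ≤ C) (hw : ‖w‖ ≤ C * σ ^ 2) {v : ℝ} (hv : |v| ≤ σ) :
    1 + ((v : ℂ) - w) * g ≠ 0 := by
  have h1 := den_ge h hg hw hv
  intro h0
  rw [h0, norm_zero] at h1
  norm_num at h1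

namespace TauH

lemma tau_le_u (h : Sml C σ N) (hg : ‖g‖ ≤ C) (hw : ‖w‖ ≤ C * σ ^ 2) {v : ℝ} (hv : |v| ≤ σ) :
    ‖tau g w v‖ ≤ 1003 / 1000 * ‖(v : ℂ) - w‖ := by
  rw [tau, div_eq_mul_inv, norm_mul, mul_comm]
  exact mul_le_mul_of_nonneg_right (inv_den_le h hg hw hv) (norm_nonneg _)

/-- quadratic approximation of `tau` -/
lemma tau_quad (h : Sml C σ N) (hg : ‖g‖ ≤ C) (hw : ‖w‖ ≤ C * σ ^ 2) {v : ℝ} (hv : |v| ≤ σ) :
    ‖tau g w v - ((v : ℂ) - w - (v : ℂ) ^ 2 * g)‖ ≤ 5 * C ^ 2 * σ ^ 3 := by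
  have hd := h.den hg hw hv
  have hσ := h.σ0
  have hC := h.C1
  have e : tau g w v - ((v : ℂ) - w - (v : ℂ) ^ 2 * g) =
      ((v : ℂ) + (v - w)) * w * g + ((v : ℂ) - w) ^ 3 * g ^ 2 * (1 + ((v : ℂ) - w) * g)⁻¹ := by
    rw [tau]; field_simp; ring
  have h1 := u_le h hw hv
  have h2 := inv_den_le h hg hw hv
  have h3 : ‖(v : ℂ) + (v - w)‖ ≤ σ + 1001 / 1000 * σ := by
    refine (norm_add_le _ _).trans (add_le_add ?_ h1)
    rwa [Complex.norm_real, Real.norm_eq_abs]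
  rw [e]
  refine (norm_add_le _ _).trans ?_
  rw [norm_mul, norm_mul, norm_mul, norm_mul, norm_pow, norm_pow]
  calc _ ≤ (σ + 1001 / 1000 * σ) * (C * σ ^ 2) * C +
        (1001 / 1000 * σ) ^ 3 * C ^ 2 * (1003 / 1000) := by gcongr
    _ = (2001 / 1000 + (1001 / 1000) ^ 3 * (1003 / 1000)) * (C ^ 2 * σ ^ 3) := by ring
    _ ≤ 5 * (C ^ 2 * σ ^ 3) := by gcongr; norm_num
    _ = _ := by ring

end TauH

lemma Sml.tau_le (h : Sml C σ N) (hg : ‖g‖ ≤ C) (hw : ‖w‖ ≤ C * σ ^ 2) {v : ℝ} (hv : |v| ≤ σ) :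
    ‖tau g w v‖ ≤ 2 * σ := by
  have h1 := tau_le_u h hg hw hv
  have h2 := u_le h hw hv
  have h3 := h.σ0
  linarith
lemma Sml.tau_sq (h : Sml C σ N) (hr : 0 ≤ r ∧ r ≤ 1) (hg : ‖g‖ ≤ C) (hw : ‖w‖ ≤ C * σ ^ 2) :
    avg N (fun k => ‖tau g w (val σ N r k)‖ ^ 2) ≤ σ ^ 2 / 3 * (21 / 20) := by
  have hσ := h.σ0
  have hs := s1 h
  have h1 : ∀ k < N, ‖tau g w (val σ N r k)‖ ^ 2 ≤
      1007 / 1000 * val σ N r k ^ 2 + 3 / 1000 * σ ^ 2 := fun k hk => by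
    have hv := abs_val_le hσ.le hr hk
    have h2 := tau_le_u h hg hw hv
    have h3 := norm_sub_le ((val σ N r k : ℝ) : ℂ) w
    rw [Complex.norm_real, Real.norm_eq_abs] at h3
    have h4 := w_le h hw
    have h5 : ‖tau g w (val σ N r k)‖ ≤ 1003 / 1000 * (|val σ N r k| + σ / 1000) := by linarith
    have h6 := pow_le_pow_left₀ (norm_nonneg _) h5 2
    rw [← sq_abs (val σ N r k)]
    have h7 := abs_nonneg (val σ N r k)
    nlinarith [mul_le_mul_of_nonneg_right hv hσ.le]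
  refine (avg_mono h1).trans ?_
  rw [avg_add, avg_mul, avg_const h.N_pos]
  have h2 := (abs_le.1 (abs_avg_val_sq h hr)).2
  have h3 : σ ^ 4 ≤ σ ^ 2 / 1000 := by
    have : σ ^ 2 ≤ 1 / 1000 := by nlinarith
    nlinarith [mul_le_mul_of_nonneg_left this (sq_nonneg σ)]
  nlinarith [sq_nonneg σ]
lemma Sml.beta_approx (h : Sml C σ N) (hr : 0 ≤ r ∧ r ≤ 1) (hg : ‖g‖ ≤ C) (hw : ‖w‖ ≤ C * σ ^ 2) :
    ‖beta σ N r g w + w + (σ ^ 2 / 3 : ℝ) * g‖ ≤ 10 * C ^ 2 * σ ^ 3 := by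
  have hσ := h.σ0
  have hC := h.C1
  have hs := s1 h
  have e : beta σ N r g w + w + (σ ^ 2 / 3 : ℝ) * g =
      avgV N (fun k => tau g w (val σ N r k) -
        ((val σ N r k : ℂ) - w - (val σ N r k : ℂ) ^ 2 * g)) +
      ((avg N (fun k => val σ N r k) : ℝ) -
        ((avg N (fun k => val σ N r k ^ 2) - σ ^ 2 / 3 : ℝ) : ℂ) * g) := by
    rw [avgV_sub, avgV_sub, avgV_sub, avgV_mul, avgV_const h.N_pos, avgV_ofReal, beta]
    simp only [← Complex.ofReal_pow]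
    rw [avgV_ofReal]
    push_cast
    ring
  have h1 := norm_avgV_le' h.N_pos fun k hk => tau_quad h hg hw (abs_val_le hσ.le hr hk)
  have h2 := abs_avg_val h hr
  have h3 := abs_avg_val_sq h hr
  rw [e]
  refine (norm_add_le _ _).trans ((add_le_add h1 (norm_sub_le _ _)).trans ?_)
  rw [norm_mul, Complex.norm_real, Complex.norm_real, Real.norm_eq_abs, Real.norm_eq_abs]
  have h4 : |avg N (fun k => val σ N r k ^ 2) - σ ^ 2 / 3| * ‖g‖ ≤ σ ^ 4 * C := by gcongr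
  have h5 := Cs h
  have h6 : σ ^ 4 * C ≤ σ ^ 3 := by nlinarith [pow_pos hσ 3]
  have h7 : σ ^ 3 ≤ C ^ 2 * σ ^ 3 := le_mul_of_one_le_left (pow_pos hσ 3).le (one_le_pow₀ hC)
  linarith [pow_pos hσ 3]
lemma Sml.beta_lip (h : Sml C σ N) (hr : 0 ≤ r ∧ r ≤ 1) (hg : ‖g‖ ≤ C) (hg' : ‖g'‖ ≤ C)
    (hw : ‖w‖ ≤ C * σ ^ 2) :
    ‖beta σ N r g' w - beta σ N r g w‖ ≤ σ ^ 2 / 3 * (21 / 20) * ‖g' - g‖ := by
  have hσ := h.σ0
  rw [beta, beta, ← avgV_sub]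
  refine (norm_avgV_le _ _).trans ?_
  have h1 : ∀ k < N, ‖tau g' w (val σ N r k) - tau g w (val σ N r k)‖ ≤
      ‖g' - g‖ / 2 * ‖tau g w (val σ N r k)‖ ^ 2 +
        ‖g' - g‖ / 2 * ‖tau g' w (val σ N r k)‖ ^ 2 := fun k hk => by
    have hv := abs_val_le hσ.le hr hk
    have hd := h.den hg hw hv
    have hd' := h.den hg' hw hv
    have e : tau g' w (val σ N r k) - tau g w (val σ N r k) =
        -(tau g w (val σ N r k) * tau g' w (val σ N r k) * (g' - g)) := by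
      rw [tau, tau]; field_simp; ring
    rw [e, norm_neg, norm_mul, norm_mul]
    nlinarith [mul_nonneg (norm_nonneg (g' - g))
      (sq_nonneg (‖tau g w (val σ N r k)‖ - ‖tau g' w (val σ N r k)‖))]
  refine (avg_mono h1).trans ?_
  rw [avg_add, avg_mul, avg_mul]
  have h2 := h.tau_sq hr hg hw
  have h3 := h.tau_sq hr hg' hw
  have h4 : 0 ≤ ‖g' - g‖ / 2 := by positivity
  nlinarith [mul_le_mul_of_nonneg_left h2 h4, mul_le_mul_of_nonneg_left h3 h4]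

namespace TauH

lemma tau_taylor (h : Sml C σ N) (hg : ‖g‖ ≤ C) (hg' : ‖g'‖ ≤ C)
    (hw : ‖w‖ ≤ C * σ ^ 2) (hw' : ‖w'‖ ≤ C * σ ^ 2) {v : ℝ} (hv : |v| ≤ σ) :
    ‖tau g' w' v - (tau g w v - (1 - tau g w v * (2 * g) + tau g w v ^ 2 * g ^ 2) * (w' - w) -
        tau g w v ^ 2 * (g' - g))‖ ≤
      8 * C * ‖w' - w‖ ^ 2 + 16 * σ * ‖w' - w‖ * ‖g' - g‖ + 8 * σ ^ 3 * ‖g' - g‖ ^ 2 := by
  have hσ := h.σ0
  have hC := h.C1
  have d1 := h.den hg hw hv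
  have d2 := h.den hg hw' hv
  have d3 := h.den hg' hw' hv
  have i1 := inv_den_le h hg hw hv
  have i2 := inv_den_le h hg hw' hv
  have t1 := h.tau_le hg hw hv
  have t2 := h.tau_le hg hw' hv
  have t3 := h.tau_le hg' hw' hv
  have e : tau g' w' v - (tau g w v - (1 - tau g w v * (2 * g) + tau g w v ^ 2 * g ^ 2) * (w' - w) -
        tau g w v ^ 2 * (g' - g)) =
      -((w' - w) ^ 2 * g * (1 + ((v : ℂ) - w) * g)⁻¹ ^ 2 * (1 + ((v : ℂ) - w') * g)⁻¹) +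
      (w' - w) * (1 + ((v : ℂ) - w) * g)⁻¹ * (1 + ((v : ℂ) - w') * g)⁻¹ *
        (tau g w v + tau g w' v) * (g' - g) + tau g w' v ^ 2 * tau g' w' v * (g' - g) ^ 2 := by
    have a1 : tau g' w' v = tau g w' v - tau g w' v * tau g' w' v * (g' - g) := by
      rw [tau, tau]; field_simp; ring
    have a2 : tau g w v - tau g w' v =
        (w' - w) * (1 + ((v : ℂ) - w) * g)⁻¹ * (1 + ((v : ℂ) - w') * g)⁻¹ := by
      rw [tau, tau, div_eq_mul_inv, div_eq_mul_inv]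
      linear_combination ((v : ℂ) - w') * (1 + ((v : ℂ) - w') * g)⁻¹ * mul_inv_cancel₀ d1 -
        ((v : ℂ) - w) * (1 + ((v : ℂ) - w) * g)⁻¹ * mul_inv_cancel₀ d2
    have a3 : 1 - tau g w v * (2 * g) + tau g w v ^ 2 * g ^ 2 = (1 + ((v : ℂ) - w) * g)⁻¹ ^ 2 := by
      rw [tau]; field_simp; ring
    have a4 : (1 + ((v : ℂ) - w) * g)⁻¹ - (1 + ((v : ℂ) - w') * g)⁻¹ =
        -((w' - w) * g * (1 + ((v : ℂ) - w) * g)⁻¹ * (1 + ((v : ℂ) - w') * g)⁻¹) := by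
      linear_combination (1 + ((v : ℂ) - w') * g)⁻¹ * mul_inv_cancel₀ d1 -
        (1 + ((v : ℂ) - w) * g)⁻¹ * mul_inv_cancel₀ d2
    rw [a3]
    linear_combination (1 - tau g w' v * (g' - g)) * a1 +
      ((tau g w v + tau g w' v) * (g' - g) - 1) * a2 + (w' - w) * (1 + ((v : ℂ) - w) * g)⁻¹ * a4
  have t4 : ‖tau g w v + tau g w' v‖ ≤ 2 * σ + 2 * σ := (norm_add_le _ _).trans (add_le_add t1 t2)
  rw [e]
  refine (norm_add₃_le).trans ?_
  simp only [norm_neg, norm_mul, norm_pow]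
  refine add_le_add (add_le_add ?_ ?_) ?_
  · calc _ ≤ ‖w' - w‖ ^ 2 * C * (1003 / 1000) ^ 2 * (1003 / 1000) := by gcongr
      _ = (1003 / 1000) ^ 3 * (C * ‖w' - w‖ ^ 2) := by ring
      _ ≤ 8 * (C * ‖w' - w‖ ^ 2) := by gcongr; norm_num
      _ = _ := by ring
  · calc _ ≤ ‖w' - w‖ * (1003 / 1000) * (1003 / 1000) * (2 * σ + 2 * σ) * ‖g' - g‖ := by gcongr
      _ = (4 * (1003 / 1000) ^ 2) * (σ * ‖w' - w‖ * ‖g' - g‖) := by ring
      _ ≤ 16 * (σ * ‖w' - w‖ * ‖g' - g‖) := by gcongr; norm_num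
      _ = _ := by ring
  · calc _ ≤ (2 * σ) ^ 2 * (2 * σ) * ‖g' - g‖ ^ 2 := by gcongr
      _ = _ := by ring

end TauH

/-- second-order expansion of the bias -/
lemma Sml.beta_taylor (h : Sml C σ N) (hr : 0 ≤ r ∧ r ≤ 1) (hg : ‖g‖ ≤ C) (hg' : ‖g'‖ ≤ C)
    (hw : ‖w‖ ≤ C * σ ^ 2) (hw' : ‖w'‖ ≤ C * σ ^ 2) :
    ‖beta σ N r g' w' - (beta σ N r g w -
        (1 - 2 * beta σ N r g w * g + avgV N (fun k => tau g w (val σ N r k) ^ 2) * g ^ 2) * (w' - w) -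
        avgV N (fun k => tau g w (val σ N r k) ^ 2) * (g' - g))‖ ≤
      8 * C * ‖w' - w‖ ^ 2 + 16 * σ * ‖w' - w‖ * ‖g' - g‖ + 8 * σ ^ 3 * ‖g' - g‖ ^ 2 := by
  have h1 := norm_avgV_le' h.N_pos fun k hk =>
    tau_taylor h hg hg' hw hw' (abs_val_le h.σ0.le hr hk)
  rw [avgV_sub, avgV_sub, avgV_sub, avgV_mul, avgV_mul, avgV_add, avgV_sub, avgV_mul, avgV_mul,
    avgV_const h.N_pos] at h1
  convert h1 using 2
  simp only [beta]
  ring

namespace TauH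

/-- three equally spaced values of a perturbed quadratic -/
lemma three (h : Sml C σ N) {a b c v s q0 q1 q2 zr gi gr : ℝ}
    (hz : 1 ≤ |zr| + |a|) (hc : c = zr * gi + a * gr) (hgi : 1 / C ≤ gi) (hgr : |gr| ≤ C)
    (hcC : |c| ≤ C) (hv : |v| ≤ σ) (hv2 : |v + 2 * s| ≤ σ) (hs : 3 / 5 * σ ≤ s)
    (h0 : |q0 - (a * v - b - c * v ^ 2)| ≤ 5 * C ^ 2 * σ ^ 3)
    (h1 : |q1 - (a * (v + s) - b - c * (v + s) ^ 2)| ≤ 5 * C ^ 2 * σ ^ 3)
    (h2 : |q2 - (a * (v + 2 * s) - b - c * (v + 2 * s) ^ 2)| ≤ 5 * C ^ 2 * σ ^ 3) :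
    3 / 50 * (σ ^ 2 / C) ^ 2 ≤ q0 ^ 2 + q1 ^ 2 + q2 ^ 2 := by
  have hσ := h.σ0
  have hC := h.C1
  have hC0 : 0 < C := by linarith
  have ht0 : 0 < σ ^ 2 / C := by positivity
  have he : 5 * C ^ 2 * σ ^ 3 ≤ 5 / 1000 * (σ ^ 2 / C) := by
    have := h.σ1
    rw [← mul_div_assoc, le_div_iff₀ hC0]
    nlinarith [mul_le_mul_of_nonneg_right this (sq_nonneg σ)]
  rw [abs_le] at h0 h1 h2
  rcases le_total |a| (1 / (20 * C ^ 2)) with ha | ha
  · have ha1 : |a| ≤ 1 / 20 := by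
      refine ha.trans (one_div_le_one_div_of_le (by norm_num) ?_)
      nlinarith
    have hc1 : 9 / 10 * (1 / C) ≤ |c| := by
      have e1 : |zr * gi| ≤ |c| + |a * gr| := by
        have := abs_sub c (a * gr)
        rwa [hc, add_sub_cancel_right, ← hc] at this
      have hgi0 : 0 < gi := lt_of_lt_of_le (by positivity) hgi
      rw [abs_mul, abs_mul, abs_of_pos hgi0] at e1
      have e2 : 19 / 20 * (1 / C) ≤ |zr| * gi := by
        have : 19 / 20 ≤ |zr| := by linarith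
        gcongr
      have e3 : |a| * |gr| ≤ 1 / 20 * (1 / C) := by
        calc |a| * |gr| ≤ 1 / (20 * C ^ 2) * C := by gcongr
          _ = _ := by field_simp
      linarith
    have hs2 : 9 / 25 * σ ^ 2 ≤ s ^ 2 := by nlinarith
    have hD : 81 / 250 * (σ ^ 2 / C) ≤ |c * s ^ 2| := by
      rw [abs_mul, abs_of_nonneg (sq_nonneg s)]
      calc 81 / 250 * (σ ^ 2 / C) = 9 / 10 * (1 / C) * (9 / 25 * σ ^ 2) := by ring
        _ ≤ _ := by gcongr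
    have hD2 : 3 / 5 * (σ ^ 2 / C) ≤ |q0 - 2 * q1 + q2| := by
      rcases le_abs'.1 hD with hD | hD
      · refine le_abs.2 (Or.inl ?_); linarith [h0.1, h1.2, h2.1]
      · refine le_abs.2 (Or.inr ?_); linarith [h0.2, h1.1, h2.2]
    have hD3 := pow_le_pow_left₀ (by positivity) hD2 2
    rw [sq_abs] at hD3
    nlinarith [sq_nonneg (2 * q0 + q1), sq_nonneg (q0 - q2), sq_nonneg (q1 + 2 * q2)]
  · have hs0 : 0 ≤ s := by linarith
    have hA : 30 * (C * σ ^ 2) ≤ |a * s| := by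
      rw [abs_mul, abs_of_nonneg hs0]
      calc 30 * (C * σ ^ 2) = 1 / (20 * C ^ 2) * (3 / 5 * σ * (1000 * C ^ 3 * σ)) := by
            field_simp; ring
        _ ≤ 1 / (20 * C ^ 2) * (3 / 5 * σ * 1) := by gcongr; exact h.σ1
        _ ≤ |a| * s := by rw [mul_one]; gcongr
    have hB : |c * ((v + 2 * s) ^ 2 - v ^ 2)| ≤ C * σ ^ 2 := by
      rw [abs_mul]
      have e1 := pow_le_pow_left₀ (abs_nonneg _) hv 2
      have e2 := pow_le_pow_left₀ (abs_nonneg _) hv2 2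
      rw [sq_abs] at e1 e2
      have : |(v + 2 * s) ^ 2 - v ^ 2| ≤ σ ^ 2 :=
        abs_le.2 ⟨by linarith [sq_nonneg (v + 2 * s)], by linarith [sq_nonneg v]⟩
      gcongr
    have htC : σ ^ 2 / C ≤ C * σ ^ 2 := by
      rw [div_le_iff₀ hC0]
      nlinarith [mul_le_mul_of_nonneg_left (one_le_pow₀ hC : 1 ≤ C ^ 2) (sq_nonneg σ)]
    rw [abs_le] at hB
    have hD2 : 3 / 5 * (σ ^ 2 / C) ≤ |q2 - q0| := by
      rcases le_abs'.1 hA with hA | hA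
      · refine le_abs.2 (Or.inr ?_); linarith [h0.1, h2.2, hB.1]
      · refine le_abs.2 (Or.inl ?_); linarith [h0.2, h2.1, hB.2]
    have hD3 := pow_le_pow_left₀ (by positivity) hD2 2
    rw [sq_abs] at hD3
    nlinarith [sq_nonneg (q0 + q2), sq_nonneg q1, sq_nonneg q0, sq_nonneg q2]

lemma im_quad (h : Sml C σ N) (hg : ‖g‖ ≤ C) (hw : ‖w‖ ≤ C * σ ^ 2) {z : ℂ} (hz : ‖z‖ = 1)
    {v : ℝ} (hv : |v| ≤ σ) :
    |(z * tau g w v).im - (z.im * v - (z * w).im - (z * g).im * v ^ 2)| ≤ 5 * C ^ 2 * σ ^ 3 := by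
  have h1 := tau_quad h hg hw hv
  have e : (z * tau g w v).im - (z.im * v - (z * w).im - (z * g).im * v ^ 2) =
      (z * (tau g w v - ((v : ℂ) - w - (v : ℂ) ^ 2 * g))).im := by
    simp only [← Complex.ofReal_pow, Complex.mul_im, Complex.mul_re, Complex.sub_im, Complex.sub_re,
      Complex.ofReal_re, Complex.ofReal_im]
    ring
  rw [e]
  refine (Complex.abs_im_le_norm _).trans ?_
  rwa [norm_mul, hz, one_mul]

lemma im_lower (h : Sml C σ N) (hr : 0 ≤ r ∧ r ≤ 1) (hg : ‖g‖ ≤ C) (hw : ‖w‖ ≤ C * σ ^ 2)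
    (him : 1 / C ≤ g.im) {z : ℂ} (hz : ‖z‖ = 1) :
    9 / 500 * (σ ^ 2 / C) ^ 2 ≤ avg N fun k => (z * tau g w (val σ N r k)).im ^ 2 := by
  have hσ := h.σ0
  have hN := Nbig h
  have hN0 : (0 : ℝ) < N := by linarith
  obtain ⟨m, hm1, hm2⟩ : ∃ m : ℕ, m + m + m ≤ N ∧ N ≤ m + m + m + 2 := ⟨N / 3, by omega, by omega⟩
  have hm3 : 3 / 10 * (N : ℝ) ≤ m := by
    have : (N : ℝ) ≤ m + m + m + 2 := by exact_mod_cast hm2
    linarith
  have hs : 3 / 5 * σ ≤ m * (2 * σ / N) := by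
    rw [← mul_div_assoc, le_div_iff₀ hN0]
    nlinarith [mul_le_mul_of_nonneg_left hm3 hσ.le]
  set q : ℕ → ℝ := fun k => (z * tau g w (val σ N r k)).im with hq
  have key : ∀ k ∈ range m, 3 / 50 * (σ ^ 2 / C) ^ 2 ≤
      q k ^ 2 + q (m + k) ^ 2 + q (m + m + k) ^ 2 := fun k hk => by
    have hk' := mem_range.1 hk
    have v1 : val σ N r (m + k) = val σ N r k + m * (2 * σ / N) := by rw [add_comm, val_add]
    have v2 : val σ N r (m + m + k) = val σ N r k + 2 * (m * (2 * σ / N)) := by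
      rw [add_comm, val_add]; push_cast; ring
    have b0 := abs_val_le (N := N) hσ.le hr (k := k) (by omega)
    have b1 := abs_val_le (N := N) hσ.le hr (k := m + k) (by omega)
    have b2 := abs_val_le (N := N) hσ.le hr (k := m + m + k) (by omega)
    have c0 := im_quad h hg hw hz b0
    have c1 := im_quad h hg hw hz b1
    have c2 := im_quad h hg hw hz b2
    refine three h (a := z.im) (b := (z * w).im) (c := (z * g).im) (v := val σ N r k)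
      (s := m * (2 * σ / N)) (zr := z.re) (gi := g.im) (gr := g.re)
      (hz ▸ Complex.norm_le_abs_re_add_abs_im z) (Complex.mul_im _ _) him
      ((Complex.abs_re_le_norm _).trans hg)
      ((Complex.abs_im_le_norm _).trans (by rwa [norm_mul, hz, one_mul])) b0 (v2 ▸ b2) hs c0 ?_ ?_
    · rw [← v1]; exact c1
    · rw [← v2]; exact c2
  have h1 := card_nsmul_le_sum _ _ _ key
  rw [card_range, nsmul_eq_mul, sum_add_distrib, sum_add_distrib,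
    ← sum_range_add (fun k => q k ^ 2), ← sum_range_add (fun k => q k ^ 2)] at h1
  have h2 : ∑ k ∈ range (m + m + m), q k ^ 2 ≤ ∑ k ∈ range N, q k ^ 2 :=
    sum_le_sum_of_subset_of_nonneg (range_subset_range.2 hm1) fun _ _ _ => sq_nonneg _
  rw [avg, le_div_iff₀ hN0]
  refine le_trans ?_ (h1.trans h2)
  nlinarith [mul_le_mul_of_nonneg_right hm3 (sq_nonneg (σ ^ 2 / C))]

end TauH

lemma Sml.tau_gap (h : Sml C σ N) (hr : 0 ≤ r ∧ r ≤ 1) (hg : ‖g‖ ≤ C) (hw : ‖w‖ ≤ C * σ ^ 2)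
    (him : 1 / C ≤ g.im) (hγ0 : 0 ≤ -w.im) (hγ : -w.im ≤ σ ^ 2 / 3 * g.im * (11 / 10)) :
    ‖avgV N fun k => tau g w (val σ N r k) ^ 2‖ ≤
      (1 - σ ^ 2 / (1000 * C ^ 2)) * avg N fun k => ‖tau g w (val σ N r k)‖ ^ 2 := by
  have _ := hγ0
  have _ := hγ
  have hC := h.C1
  obtain ⟨c, hc1, hc2⟩ := Complex.exists_norm_eq_mul_self
    (avgV N fun k => tau g w (val σ N r k) ^ 2)
  obtain ⟨z, hz2⟩ := IsAlgClosed.exists_pow_nat_eq c (n := 2) (by norm_num)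
  have hz : ‖z‖ = 1 := by
    have : ‖z‖ ^ 2 = 1 := by rw [← norm_pow, hz2, hc1]
    exact (pow_eq_one_iff_of_nonneg (norm_nonneg _) (by norm_num)).1 this
  have e1 : ‖avgV N fun k => tau g w (val σ N r k) ^ 2‖ =
      (avg N fun k => ‖tau g w (val σ N r k)‖ ^ 2) +
        (-2) * avg N fun k => (z * tau g w (val σ N r k)).im ^ 2 := by
    have e2 := congrArg Complex.re hc2
    rw [Complex.ofReal_re, mul_comm, ← avgV_mul, ← avg_re] at e2
    rw [e2, ← avg_mul, ← avg_add]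
    congr 1
    funext k
    have e3 : ‖tau g w (val σ N r k)‖ = ‖z * tau g w (val σ N r k)‖ := by rw [norm_mul, hz, one_mul]
    rw [e3, ← hz2, ← mul_pow, mul_comm (tau g w (val σ N r k)) z, Complex.sq_norm,
      Complex.normSq_apply, sq, Complex.mul_re]
    ring
  have h1 := im_lower h hr hg hw him hz
  have h2 := h.tau_sq hr hg hw
  have h3 : 0 ≤ σ ^ 2 / (1000 * C ^ 2) := by positivity
  have h4 : σ ^ 2 / (1000 * C ^ 2) * (σ ^ 2 / 3 * (21 / 20)) = 7 / 20000 * (σ ^ 2 / C) ^ 2 := by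
    field_simp; ring
  rw [e1]
  nlinarith [mul_le_mul_of_nonneg_left h2 h3, sq_nonneg (σ ^ 2 / C)]

end Crest.Agent.N334.AC
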