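import Crest.Agent.N334.AC.L.Tau
import Crest.Agent.N334.AC.L.Basic
import Crest.Agent.N334.AC.L.Newton

/-! # S0520 part L: two more scalar facts and the block-to-global bound (leaf).
`beta_lip'`: `τ(g') - τ(g) = -τ(g)τ(g')(g'-g)` and `|τ(g)| ≤ |τ(g')|(1 + 2σ|g'-g|)`.
`norm_le_blocks`: `k x y = #{p : x,y ∈ tball p L}/vol L`, `X∘k` is an average of compressions
(`norm_sum_local_le`), `X - X∘k` by the Schur test and `overlap_ge`. -/

set_option autoImplicit false

open Finset Complex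
open scoped Matrix.Norms.L2Operator Matrix

namespace Crest.Agent.N334.AC

variable {C σ r : ℝ} {N : ℕ} {g g' w : ℂ}

lemma Sml.tau_sq_ge (h : Sml C σ N) (hr : 0 ≤ r ∧ r ≤ 1) (hg : ‖g‖ ≤ C) (hw : ‖w‖ ≤ C * σ ^ 2) :
    σ ^ 2 / 4 ≤ avg N fun k => ‖tau g w (val σ N r k)‖ ^ 2 := by
  have hσ := h.σ0
  have hs := TauH.s1 h
  have h1 : ∀ k < N, 99 / 100 * val σ N r k ^ 2 + -(σ ^ 2 / 500) ≤
      ‖tau g w (val σ N r k)‖ ^ 2 := fun k hk => by
    have hv := abs_val_le hσ.le hr hk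
    have hd := h.den hg hw hv
    have h2 := TauH.u_le h hw hv
    have h3 : ‖1 + ((val σ N r k : ℂ) - w) * g‖ ≤ 1002 / 1000 := by
      refine (norm_add_le _ _).trans ?_
      have h4 : ‖((val σ N r k : ℂ) - w) * g‖ ≤ 1001 / 1000 * σ * C := by
        rw [norm_mul]
        exact mul_le_mul h2 hg (norm_nonneg _) (by positivity)
      have h5 := TauH.Cs h
      rw [norm_one]
      nlinarith
    have h4 : ‖(val σ N r k : ℂ) - w‖ ≤ ‖tau g w (val σ N r k)‖ * (1002 / 1000) := by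
      have e : (val σ N r k : ℂ) - w =
          tau g w (val σ N r k) * (1 + ((val σ N r k : ℂ) - w) * g) := by
        rw [tau, div_mul_cancel₀ _ hd]
      calc _ = ‖tau g w (val σ N r k)‖ * ‖1 + ((val σ N r k : ℂ) - w) * g‖ := by
            rw [← norm_mul, ← e]
        _ ≤ _ := mul_le_mul_of_nonneg_left h3 (norm_nonneg _)
    have h5 := abs_norm_sub_norm_le ((val σ N r k : ℝ) : ℂ) w
    rw [Complex.norm_real, Real.norm_eq_abs] at h5
    have h6 := pow_le_pow_left₀ (abs_nonneg _) (h5.trans h4) 2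
    rw [sq_abs, mul_pow] at h6
    have h7 := TauH.w_le h hw
    have h8 : |val σ N r k| * ‖w‖ ≤ σ * (σ / 1000) :=
      mul_le_mul hv h7 (norm_nonneg _) hσ.le
    rw [← sq_abs (val σ N r k)]
    nlinarith [sq_nonneg ‖w‖, sq_nonneg ‖tau g w (val σ N r k)‖, sq_nonneg σ]
  refine le_trans ?_ (avg_mono h1)
  rw [avg_add, avg_mul, avg_const h.N_pos]
  have h2 := (abs_le.1 (TauH.abs_avg_val_sq h hr)).1
  have h3 : σ ^ 4 ≤ σ ^ 2 / 1000 := by
    have : σ ^ 2 ≤ 1 / 1000 := by nlinarith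
    nlinarith [mul_le_mul_of_nonneg_left this (sq_nonneg σ)]
  nlinarith [sq_nonneg σ]

lemma Sml.beta_lip' (h : Sml C σ N) (hr : 0 ≤ r ∧ r ≤ 1) (hg : ‖g‖ ≤ C) (hg' : ‖g'‖ ≤ C)
    (hw : ‖w‖ ≤ C * σ ^ 2) :
    ‖beta σ N r g' w - beta σ N r g w‖ ≤ (1 + 2 * σ * ‖g' - g‖) *
      avg N (fun k => ‖tau g' w (val σ N r k)‖ ^ 2) * ‖g' - g‖ := by
  have hσ := h.σ0
  rw [beta, beta, ← TauH.avgV_sub]
  refine (norm_avgV_le _ _).trans ?_
  have h1 : ∀ k < N, ‖tau g' w (val σ N r k) - tau g w (val σ N r k)‖ ≤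
      (1 + 2 * σ * ‖g' - g‖) * ‖g' - g‖ * ‖tau g' w (val σ N r k)‖ ^ 2 := fun k hk => by
    have hv := abs_val_le hσ.le hr hk
    have hd := h.den hg hw hv
    have hd' := h.den hg' hw hv
    have e : tau g' w (val σ N r k) - tau g w (val σ N r k) =
        -(tau g w (val σ N r k) * tau g' w (val σ N r k) * (g' - g)) := by
      rw [tau, tau]; field_simp; ring
    have e2 : ‖tau g' w (val σ N r k) - tau g w (val σ N r k)‖ =
        ‖tau g w (val σ N r k)‖ * (‖tau g' w (val σ N r k)‖ * ‖g' - g‖) := by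
      rw [e, norm_neg, norm_mul, norm_mul, mul_assoc]
    have h2 := h.tau_le hg hw hv
    have h3 := norm_sub_norm_le (tau g w (val σ N r k)) (tau g' w (val σ N r k))
    rw [norm_sub_rev, e2] at h3
    have h4 : 0 ≤ ‖tau g' w (val σ N r k)‖ * ‖g' - g‖ := by positivity
    have h5 := mul_le_mul_of_nonneg_right h2 h4
    have h6 : ‖tau g w (val σ N r k)‖ ≤ (1 + 2 * σ * ‖g' - g‖) * ‖tau g' w (val σ N r k)‖ := by
      linarith
    rw [e2]
    exact (mul_le_mul_of_nonneg_right h6 h4).trans (le_of_eq (by ring))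
  refine (avg_mono h1).trans (le_of_eq ?_)
  rw [avg_mul]
  ring

lemma norm_le_blocks {d M : ℕ} [NeZero M] {X : Matrix (Tor d M) (Tor d M) ℂ} {O : Finset (Tor d M)}
    {b e : ℝ} {L : ℕ} (hb : 0 ≤ b) (he : 0 ≤ e) (hblk : ∀ p, ‖cmp X (O ∩ tball p L)‖ ≤ b)
    (hr : ∀ x ∈ O, ∑ y ∈ O, ‖X x y‖ * tdist x y ≤ e * L)
    (hc : ∀ y ∈ O, ∑ x ∈ O, ‖X x y‖ * tdist x y ≤ e * L) : ‖cmp X O‖ ≤ b + d * e := by
  have hL : (0 : ℝ) < L + 1 := by positivity
  have h1 := Nw.norm_At hb hblk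
  have h0 : ∀ x y, ¬ (x ∈ O ∧ y ∈ O) → ‖(cmp X O - Nw.At X O L) x y‖ = 0 := fun x y h => by
    simp [Nw.At, cmp, h]
  have h2 : ∀ x ∈ O, ∀ y ∈ O, ‖(cmp X O - Nw.At X O L) x y‖ ≤
      d / (L + 1) * (‖X x y‖ * tdist x y) := fun x hx y hy => by
    have e1 : (cmp X O - Nw.At X O L) x y = X x y * ((1 - Nw.kk L x y : ℝ) : ℂ) := by
      have : cmp X O x y = X x y := by simp [cmp, hx, hy]
      rw [Matrix.sub_apply, Nw.At, this]; push_cast; ring
    rw [e1, norm_mul, norm_real, Real.norm_eq_abs, abs_of_nonneg (sub_nonneg.2 (Nw.kk_le L x y))]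
    exact (mul_le_mul_of_nonneg_left (Nw.kk_ge L x y) (norm_nonneg _)).trans (le_of_eq (by ring))
  have h3 : d / (L + 1) * (e * L) ≤ d * e := by
    calc d / (L + 1) * (e * L) ≤ d / (L + 1) * (e * (L + 1)) :=
          mul_le_mul_of_nonneg_left (by nlinarith) (by positivity)
      _ = d * e := by field_simp
  have h4 : ‖cmp X O - Nw.At X O L‖ ≤ d * e := by
    refine norm_le_schur (by positivity) (fun x => ?_) fun y => ?_
    · by_cases hx : x ∈ O
      · rw [← sum_subset (subset_univ O) fun y _ hy => h0 x y fun h => hy h.2]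
        refine (sum_le_sum (h2 x hx)).trans ?_
        rw [← mul_sum]
        exact (mul_le_mul_of_nonneg_left (hr x hx) (by positivity)).trans h3
      · rw [sum_eq_zero fun y _ => h0 x y fun h => hx h.1]
        positivity
    · by_cases hy : y ∈ O
      · rw [← sum_subset (subset_univ O) fun x _ hx => h0 x y fun h => hx h.1]
        refine (sum_le_sum fun x hx => h2 x hx y hy).trans ?_
        rw [← mul_sum]
        exact (mul_le_mul_of_nonneg_left (hc y hy) (by positivity)).trans h3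
      · rw [sum_eq_zero fun x _ => h0 x y fun h => hy h.2]
        positivity
  have h5 := norm_add_le (Nw.At X O L) (cmp X O - Nw.At X O L)
  rw [add_sub_cancel] at h5
  linarith

end Crest.Agent.N334.AC
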