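import Crest.Agent.N334.AC.L.Close
import Crest.Agent.N334.AC.Weg

/-! # S0520 part L: Wegner estimate on cells (leaf).
`weg_good`: `a = (G_η)_{BB}`, Ward: `Im a ≥ η aᴴ a`; `‖(1+iηa)φ‖² ≥ (1 - 2η Tr Im a)‖φ‖²`, so the closed
system at `v` is invertible with `‖G_{BB}‖ ≤ 1/η`; then perturb by `|v'-v| ≤ η/4`.
`weg_avg`: `avgP_update`; in the variable `v_x`, `1/G_xx = v_x + const`, `Im (1/G_xx) ≤ -η` (or `G_xx ≡ 0`), and
`∑_{i<m} Im 1/(a + i s - z) ≤ 10/s` for `Im z ≥ η ≥ s`. -/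

set_option autoImplicit false

open Finset Complex
open scoped Matrix.Norms.L2Operator Matrix

namespace Crest.Agent.N334.AC

variable {ι : Type} [Fintype ι] [DecidableEq ι] {A : Matrix ι ι ℂ} {w : ι → ℂ} {B : Finset ι}

lemma Adm.eta (h : Adm A w) (v : ι → ℝ) {η : ℝ} (hη : 0 < η) : Adm A (wEta w B v η) :=
  Wg.adm_reg h B hη v

lemma gam_wEta {v : ι → ℝ} {η : ℝ} {x : ι} (hx : x ∈ B) : gam (wEta w B v η) x = η :=
  Wg.gam_reg hx

lemma Adm.diss_wCl (h : Adm A w) (v : ι → ℝ) (a : ι) : 0 ≤ gam (wCl w B v) a := by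
  by_cases ha : a ∈ B
  · simp [gam, wCl, ha]
  · simpa [gam, wCl, ha] using h.diss a

theorem Adm.weg_good (h : Adm A w) {v v' : ι → ℝ} {η : ℝ} (hη : 0 < η)
    (hg : η * ∑ x ∈ B, (Gm A (wEta w B v η) x x).im ≤ 1 / 4) (hv : ∀ x ∈ B, |v' x - v x| ≤ η / 4) :
    Adm A (wCl w B v') ∧ ‖cmp (Gm A (wCl w B v')) B‖ ≤ 2 / η := by
  have h1 := h.eta (B := B) v hη
  have h2 := bd_of_trace h1 (T := B) hη (g := 1 / (2 * η)) (fun a ha => (gam_wEta ha).ge) (by
    rw [← le_div_iff₀' hη] at hg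
    exact hg.trans (le_of_eq (by field_simp; norm_num)))
  obtain ⟨h3, h4⟩ := h1.pert (w' := wCl w B v) (T := B) (fun a ha => by simp [wCl, wEta, ha])
    (u := η) hη.le (by positivity) (fun a ha => by
      simp [wCl, wEta, ha, abs_of_pos hη]) h2 (le_of_eq (by field_simp)) (h.diss_wCl v)
  obtain ⟨h5, h6⟩ := h3.pert (w' := wCl w B v') (T := B) (fun a ha => by simp [wCl, ha])
    (u := η / 4) (by positivity) (by positivity) (fun a ha => by
      simp only [wCl, ha, if_true]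
      rw [← ofReal_sub, norm_real, Real.norm_eq_abs]
      exact hv a ha) h4 (by field_simp; norm_num) (h.diss_wCl v')
  refine ⟨h5, ?_⟩
  rw [show 2 * (2 * (1 / (2 * η))) = 2 / η by field_simp] at h6
  exact (bd_iff_norm (by positivity)).1 h6

theorem Adm.weg_avg (h : Adm A w) {a : ι → ℝ} {s η : ℝ} {m : ι → ℕ} (hm : ∀ x, 0 < m x)
    (hs : 0 < s) (hη : s ≤ η) :
    avgP m (fun ξ => η * ∑ x ∈ B, (Gm A (wEta w B (fun z => a z + ξ z * s) η) x x).im) ≤
      ∑ x ∈ B, 10 * η / (m x * s) := by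
  have hη0 := hs.trans_le hη
  rw [avgP_mul, avgP_sum, mul_sum]
  refine sum_le_sum fun x hx => ?_
  have hmx : (0 : ℝ) < m x := Nat.cast_pos.2 (hm x)
  have key : avgP m (fun ξ => (Gm A (wEta w B (fun z => a z + ξ z * s) η) x x).im) ≤
      10 / s / m x := by
    rw [avgP_update hm x, ← avgP_const hm (10 / s / m x)]
    refine avgP_mono fun ξ _ => div_le_div_of_nonneg_right ?_ hmx.le
    obtain ⟨p, b, hb, H⟩ := exists_pole
      (h.eta (B := B) (Function.update (fun z => a z + ξ z * s) x 0) hη0) x hs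
      (by rw [gam_wEta hx]; exact hη)
    refine le_trans (sum_le_sum fun i _ => ?_)
      (Wg.sum_le hs hb p (fun i : ℕ => a x + i * s) (range (m x)) fun i _ j _ hij => ?_)
    · refine H (a x + i * s) _ (h.eta _ hη0) (fun t ht => ?_) ?_
      · simp [wEta, Function.update_of_ne ht]
      · simp only [wEta, hx, if_true, Function.update_self, ofReal_zero]
        ring
    · rw [add_sub_add_left_eq_sub, ← sub_mul, abs_mul, abs_of_pos hs]
      refine le_mul_of_one_le_left hs.le ?_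
      have : (1 : ℤ) ≤ |(i : ℤ) - j| := Int.one_le_abs (sub_ne_zero.2 (by exact_mod_cast hij))
      exact_mod_cast this
  exact (mul_le_mul_of_nonneg_left key hη0.le).trans (le_of_eq (by field_simp))

end Crest.Agent.N334.AC
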